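import Crest.Agent.X261.Gauss.NP_Mg

/-!
# X261, package REL (helper36), file `Box`: product boxes along a regular fibre

* `th a z`, `ta a z` : the covectors `d a_k` and their wedge product;
* `Box a z₀ U`       : a biholomorphism `s` from an open set of `ℂ^q × ℂ^r` with `a (s u) = u.1`;
* `exists_box`;
* `Box.V u w`        : the vertical vector `ds (0, w)`; `Box.vert_w1`, `Box.w1_eq` : the form
  `η ∧ τ` and the vertical part of `η` determine each other.
-/

set_option autoImplicit false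
set_option linter.unusedSectionVars false

open Set Filter Topology Metric Matrix
open scoped InnerProductSpace ComplexConjugate

noncomputable section

namespace Crest.Agent.X261.Rel.Bx

open Crest.Agent.R275.Geo (Cn dbj)
open Crest.Agent.R275.OmT75 (dj)
open Crest.Agent.R273.Fock_243 (FI eW iW ep)
open Crest.Agent.X261.Plk

variable {n q : ℕ}

/-- the covectors `d a_k` -/
def th (a : Cn n → Cn q) (z : Cn n) : Fin q → Fin n → ℂ := fun k b => dj b (fun y => a y k) z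

/-- `d a_1 ∧ … ∧ d a_q` -/
def ta (a : Cn n → Cn q) (z : Cn n) : FI n → ℂ := Top.wdg (th a z)

theorem th_eq {a : Cn n → Cn q} {z : Cn n} (ha : DifferentiableAt ℂ a z) (k : Fin q) (b : Fin n) :
    th a z k b = fderiv ℂ a z (EuclideanSpace.single b 1) k := by
  have h : HasFDerivAt (fun y => a y k)
      ((EuclideanSpace.proj k : Cn q →L[ℂ] ℂ).comp (fderiv ℂ a z)) z :=
    (EuclideanSpace.proj k : Cn q →L[ℂ] ℂ).hasFDerivAt.comp z ha.hasFDerivAt
  rw [th, dj_eq_fderiv h.differentiableAt, h.fderiv]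
  rfl

theorem th_sum {a : Cn n → Cn q} {z : Cn n} (ha : DifferentiableAt ℂ a z) (k : Fin q)
    (w : Fin n → ℂ) : ∑ b, th a z k b * w b = fderiv ℂ a z (WithLp.toLp 2 w) k := by
  rw [clm_toLp]
  simp only [th_eq ha, WithLp.ofLp_sum, WithLp.ofLp_smul, Finset.sum_apply, Pi.smul_apply,
    smul_eq_mul]
  exact Finset.sum_congr rfl fun b _ => mul_comm _ _


theorem an_ta {a : Cn n → Cn q} {z : Cn n} (ha : AnalyticAt ℂ a z) (I : FI n) :
    AnalyticAt ℂ (fun y => ta a y I) z := by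
  refine (Gauss.NP.an_tau ha I).congr (ha.eventually_analyticAt.mono fun y hy => ?_)
  have : Gauss.NP.dA a y = th a y := by
    funext k b
    exact (th_eq hy.differentiableAt k b).symm
  simp only [Gauss.NP.tau, ta, this]

theorem range_eq_top {a : Cn n → Cn q} {z : Cn n} (ha : DifferentiableAt ℂ a z)
    (h : ta a z ≠ 0) : (fderiv ℂ a z : Cn n →ₗ[ℂ] Cn q).range = ⊤ := by
  rw [← Submodule.orthogonal_eq_bot_iff, eq_bot_iff]
  intro y hy
  have h1 := Fintype.linearIndependent_iff.1 (twdg_ne_zero_iff.1 h) (fun k => conj (y k)) ?_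
  · rw [Submodule.mem_bot]
    ext k
    simpa using h1 k
  · funext b
    have h2 := (Submodule.mem_orthogonal' _ _).1 hy (fderiv ℂ a z (EuclideanSpace.single b 1))
      ⟨_, rfl⟩
    simp only [PiLp.inner_apply, RCLike.inner_apply] at h2
    simp only [Finset.sum_apply, Pi.smul_apply, smul_eq_mul, th_eq ha, Pi.zero_apply]
    rw [← h2]
    exact Finset.sum_congr rfl fun k _ => mul_comm _ _

/-- a product box around `z₀` -/
structure Box (a : Cn n → Cn q) (z₀ : Cn n) (U : Set (Cn n)) where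
  r : ℕ
  s : OpenPartialHomeomorph (Cn q × Cn r) (Cn n)
  ρ : ℝ
  pos : 0 < ρ
  sub : closedBall (a z₀, (0 : Cn r)) ρ ⊆ s.source
  ctr : s (a z₀, 0) = z₀
  an : AnalyticOnNhd ℂ s s.source
  an_symm : AnalyticOnNhd ℂ s.symm s.target
  tgt : s.target ⊆ U
  fst : ∀ u ∈ s.source, a (s u) = u.1
  J : FI n
  ne : ∀ z ∈ s.target, ta a z J ≠ 0

theorem exists_box {a : Cn n → Cn q} {z₀ : Cn n} {U : Set (Cn n)} (hU : IsOpen U) (hz : z₀ ∈ U)
    (ha : DifferentiableOn ℂ a U) (h0 : ta a z₀ ≠ 0) : Nonempty (Box a z₀ U) := by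
  have han : AnalyticAt ℂ a z₀ := R266.SCV.analyticOnNhd_of_differentiableOn hU ha z₀ hz
  obtain ⟨J, hJ⟩ : ∃ J, ta a z₀ J ≠ 0 := Function.ne_iff.1 h0
  set L := fderiv ℂ a z₀ with hL
  set K : Submodule ℂ (Cn n) := (L : Cn n →ₗ[ℂ] Cn q).ker with hK
  let e : K ≃L[ℂ] Cn (Module.finrank ℂ K) := ContinuousLinearEquiv.ofFinrankEq (by simp)
  let g : Cn n →L[ℂ] Cn (Module.finrank ℂ K) := (e : K →L[ℂ] _).comp K.orthogonalProjectionOnto
  have hg : (g : Cn n →ₗ[ℂ] Cn (Module.finrank ℂ K)).range = ⊤ := by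
    rw [LinearMap.range_eq_top]
    intro y
    exact ⟨e.symm y, by simp [g]⟩
  have hk : (g : Cn n →ₗ[ℂ] Cn (Module.finrank ℂ K)).ker = Kᗮ := by
    ext x
    simp [g]
  have hc : IsCompl (L : Cn n →ₗ[ℂ] Cn q).ker
      (g : Cn n →ₗ[ℂ] Cn (Module.finrank ℂ K)).ker := by
    rw [hk]
    exact Submodule.isCompl_orthogonal K
  let E := L.equivProdOfSurjectiveOfIsCompl g (range_eq_top han.differentiableAt h0) hg hc
  have hF : AnalyticAt ℂ (fun z => (a z, g (z - z₀))) z₀ :=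
    han.prod ((g.analyticAt _).comp (analyticAt_id.sub analyticAt_const))
  have hF' : HasFDerivAt (fun z => (a z, g (z - z₀))) (E : Cn n →L[ℂ] _) z₀ := by
    have h1 : HasFDerivAt (fun z => g (z - z₀)) g z₀ :=
      g.hasFDerivAt.comp z₀ ((hasFDerivAt_id z₀).sub_const z₀)
    exact han.differentiableAt.hasFDerivAt.prodMk h1
  have hN : U ∩ {z | ta a z J ≠ 0} ∈ 𝓝 z₀ :=
    inter_mem (hU.mem_nhds hz) ((an_ta han J).continuousAt.eventually_ne hJ)
  obtain ⟨c, h1, h2, h3, h4, h5⟩ :=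
    R266.SCV.exists_analytic_openPartialHomeomorph hF E hF' hN
  have h6 : c z₀ = (a z₀, 0) := by rw [h3]; simp
  obtain ⟨ρ, hρ, h7⟩ := nhds_basis_closedBall.mem_iff.1
    (c.open_target.mem_nhds (h6 ▸ c.map_source h1))
  refine ⟨⟨_, c.symm, ρ, hρ, h7, ?_, h5, h4, fun z hz' => (h2 hz').1, fun u hu => ?_, J,
    fun z hz' => (h2 hz').2⟩⟩
  · rw [← h6]; exact c.left_inv h1
  · have := c.right_inv hu
    rw [h3] at this
    exact congrArg Prod.fst this

namespace Box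

variable {a : Cn n → Cn q} {z₀ : Cn n} {U : Set (Cn n)} (B : Box a z₀ U)

/-- the centre of the box -/
def o : Cn q × Cn B.r := (a z₀, 0)

/-- the open box -/
def W : Set (Cn n) := B.s '' ball B.o B.ρ

/-- the closed box -/
def K : Set (Cn n) := B.s '' closedBall B.o B.ρ

theorem sub' : ball B.o B.ρ ⊆ B.s.source := ball_subset_closedBall.trans B.sub

theorem ball_eq : ball B.o B.ρ = ball (a z₀) B.ρ ×ˢ ball (0 : Cn B.r) B.ρ :=
  (ball_prod_same _ _ _).symm

theorem isOpen_W : IsOpen B.W := B.s.isOpen_image_of_subset_source isOpen_ball B.sub'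

theorem mem_W : z₀ ∈ B.W := ⟨_, mem_ball_self B.pos, B.ctr⟩

theorem W_sub_K : B.W ⊆ B.K := image_mono ball_subset_closedBall

theorem K_sub : B.K ⊆ B.s.target := by
  rintro _ ⟨u, hu, rfl⟩
  exact B.s.map_source (B.sub hu)

theorem W_sub : B.W ⊆ B.s.target := B.W_sub_K.trans B.K_sub

theorem K_sub_U : B.K ⊆ U := B.K_sub.trans B.tgt

theorem W_sub_U : B.W ⊆ U := B.W_sub.trans B.tgt

theorem isCompact_K : IsCompact B.K :=
  (isCompact_closedBall _ _).image_of_continuousOn (B.s.continuousOn.mono B.sub)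

theorem symm_mem {z : Cn n} (hz : z ∈ B.W) : B.s.symm z ∈ ball B.o B.ρ := by
  obtain ⟨u, hu, rfl⟩ := hz
  rwa [B.s.left_inv (B.sub' hu)]

/-- a smaller box -/
def shrink {ρ' : ℝ} (h0 : 0 < ρ') (h : ρ' ≤ B.ρ) : Box a z₀ U :=
  { B with ρ := ρ', pos := h0, sub := (closedBall_subset_closedBall h).trans B.sub }

theorem exists_shrink {N : Set (Cn n)} (hN : N ∈ 𝓝 z₀) :
    ∃ (ρ' : ℝ) (h0 : 0 < ρ') (h : ρ' ≤ B.ρ), (B.shrink h0 h).K ⊆ N := by
  have h1 : ContinuousAt B.s B.o := B.s.continuousAt (B.sub (mem_closedBall_self B.pos.le))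
  have h2 : B.s ⁻¹' N ∈ 𝓝 B.o := h1 (by rw [o, B.ctr]; exact hN)
  obtain ⟨ε, hε, h3⟩ := nhds_basis_closedBall.mem_iff.1 h2
  refine ⟨min ε B.ρ, lt_min hε B.pos, min_le_right _ _, ?_⟩
  rintro _ ⟨u, hu, rfl⟩
  exact h3 (closedBall_subset_closedBall (min_le_left _ _) hu)

theorem a_eq {z : Cn n} (hz : z ∈ B.s.target) : a z = (B.s.symm z).1 := by
  rw [← B.fst _ (B.s.map_target hz), B.s.right_inv hz]

theorem a_ev {z : Cn n} (hz : z ∈ B.s.target) : a =ᶠ[𝓝 z] fun y => (B.s.symm y).1 :=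
  eventually_of_mem (B.s.open_target.mem_nhds hz) fun _ hy => B.a_eq hy

theorem an_a {z : Cn n} (hz : z ∈ B.s.target) : AnalyticAt ℂ a z :=
  (analyticAt_fst.comp (B.an_symm z hz)).congr (B.a_ev hz).symm

theorem fd_a {z : Cn n} (hz : z ∈ B.s.target) (x : Cn n) :
    fderiv ℂ a z x = (fderiv ℂ B.s.symm z x).1 := by
  rw [(B.a_ev hz).fderiv_eq, fderiv.fst (B.an_symm z hz).differentiableAt]
  rfl

theorem fd_symm_s {u : Cn q × Cn B.r} (hu : u ∈ B.s.source) (x : Cn q × Cn B.r) :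
    fderiv ℂ B.s.symm (B.s u) (fderiv ℂ B.s u x) = x := by
  have h1 := (B.an_symm _ (B.s.map_source hu)).differentiableAt.hasFDerivAt.comp u
    (B.an u hu).differentiableAt.hasFDerivAt
  have h2 : HasFDerivAt (B.s.symm ∘ B.s) (ContinuousLinearMap.id ℂ _) u :=
    (hasFDerivAt_id u).congr_of_eventuallyEq (B.s.eventually_left_inverse hu)
  exact congrArg (fun L => L x) (h1.unique h2)

theorem fd_s_symm {u : Cn q × Cn B.r} (hu : u ∈ B.s.source) (x : Cn n) :
    fderiv ℂ B.s u (fderiv ℂ B.s.symm (B.s u) x) = x := by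
  have h0 : HasFDerivAt B.s (fderiv ℂ B.s u) (B.s.symm (B.s u)) := by
    rw [B.s.left_inv hu]
    exact (B.an u hu).differentiableAt.hasFDerivAt
  have h1 := h0.comp (B.s u) (B.an_symm _ (B.s.map_source hu)).differentiableAt.hasFDerivAt
  have h2 : HasFDerivAt (B.s ∘ B.s.symm) (ContinuousLinearMap.id ℂ _) (B.s u) :=
    (hasFDerivAt_id _).congr_of_eventuallyEq (B.s.eventually_right_inverse' hu)
  exact congrArg (fun L => L x) (h1.unique h2)

/-- the vertical vector `ds (0, w)` at `s u` -/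
def V (u : Cn q × Cn B.r) (w : Cn B.r) : Fin n → ℂ := (fderiv ℂ B.s u (0, w)).ofLp

theorem V_mem {u : Cn q × Cn B.r} (hu : u ∈ B.s.source) (w : Cn B.r) :
    B.V u w ∈ kerF (th a (B.s u)) := fun k => by
  have hz := B.s.map_source hu
  rw [th_sum (B.an_a hz).differentiableAt, V, WithLp.toLp_ofLp, B.fd_a hz, B.fd_symm_s hu]
  rfl

theorem exists_V {u : Cn q × Cn B.r} (hu : u ∈ B.s.source) {x : Fin n → ℂ}
    (hx : x ∈ kerF (th a (B.s u))) : ∃ w, B.V u w = x := by
  have hz := B.s.map_source hu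
  refine ⟨(fderiv ℂ B.s.symm (B.s u) (WithLp.toLp 2 x)).2, ?_⟩
  have h1 : (fderiv ℂ B.s.symm (B.s u) (WithLp.toLp 2 x)).1 = 0 := by
    rw [← B.fd_a hz]
    ext k
    rw [← th_sum (B.an_a hz).differentiableAt]
    exact hx k
  rw [V, ← h1, Prod.mk.eta, B.fd_s_symm hu]


variable {Y : Type*} [AddCommGroup Y] [Module ℂ Y]

/-- the vertical part of `η` is read on `η ∧ τ` -/
theorem vert_w1 {u : Cn q × Cn B.r} (hu : u ∈ B.s.source) (w : Cn B.r) (η : Fin n → Y) :
    ∑ b, B.V u w b • η b =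
      (ta a (B.s u) B.J)⁻¹ • mv (iW (B.V u w)) (w1 (ta a (B.s u)) η) B.J := by
  have h : Top.wdg (th a (B.s u)) B.J ≠ 0 := B.ne _ (B.s.map_source hu)
  rw [ta, iW_w1 (B.V_mem hu w), smul_smul, inv_mul_cancel₀ h, one_smul]

/-- `η ∧ τ` only depends on the vertical part of `η` -/
theorem w1_eq {u : Cn q × Cn B.r} (hu : u ∈ B.s.source) {η η' : Fin n → Y}
    (h : ∀ w, ∑ b, B.V u w b • η b = ∑ b, B.V u w b • η' b) :
    w1 (ta a (B.s u)) η = w1 (ta a (B.s u)) η' :=
  w1_congr fun x hx => by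
    obtain ⟨w, rfl⟩ := B.exists_V hu hx
    exact h w

end Box

end Crest.Agent.X261.Rel.Bx
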