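import Crest.Agent.X261.Fam77.Uq_Mg
import Crest.Agent.X261.Fam69.Defs
import Crest.Agent.X261.B88.Bas
import Crest.Agent.X261.End.Set
import Crest.Agent.X261.Fam11.Sum_Mg
import Crest.Agent.X261.Fam20.E_Mg
import Crest.Agent.X261.Fam79.Min_Mg
import Crest.Agent.X261.Rel.Prim
import Crest.Agent.X261.Rel85.Nl
import Crest.Agent.X261.Ni.Tr
import Crest.Agent.X261.Ni.Bo
import Crest.Agent.X261.End.Alg
import Mathlib
import Crest.Agent.X261.Rel.Box
import Crest.Agent.R273.UCovE_914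
import Crest.Agent.X261.Rel.Stm
import Crest.Agent.X261.Plk.Wt
import Crest.Agent.X261.Plk.C
import Crest.Agent.X261.Gauss.NPa

-- ▼ part X261/FamG/Main
section

/-!
# X261, package FAM (helper3), file `Main`: `B88.FamStmt` from the existence statement
-/

set_option autoImplicit false
set_option linter.unusedSectionVars false

open Set Filter Topology MeasureTheory

namespace Crest.Agent.X261.FamG

open Crest.Agent.R275.Geo Crest.Agent.R273.UCov_914
open Crest.Agent.X261.Fam Crest.Agent.X261.End Crest.Agent.X261.Grp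

noncomputable section

variable {n q : ℕ} {X : Type} [TopologicalSpace X] {A : Atl n X} {Γ : Type} [Group Γ]
variable {D : MonD A Γ} {N : Subgroup Γ} (Z : AQ D N q)

theorem exists_mp [Nonempty (D.cov Γ)] (g : Γ) : ∃ φ : Cn q ≃ₜ Cn q, MeasurePreserving φ volume volume ∧
    ∀ e, Z.a (g • e) = φ (Z.a e) := by
  refine ⟨(B88.Le Z g).toHomeomorph.trans (Homeomorph.addRight (Z.lam g)), ?_, Z.eqv g⟩
  set φ := (B88.Le Z g).toHomeomorph.trans (Homeomorph.addRight (Z.lam g)) with hφ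
  refine ⟨φ.continuous.measurable, Measure.ext fun s hs => ?_⟩
  rw [Measure.map_apply φ.continuous.measurable hs]
  have h1 := Fam77.vol_clm (Z.L g) (Z.lam g) (φ ⁻¹' s)
  rw [Z.det g, one_pow, ENNReal.ofReal_one, one_mul] at h1
  rw [← h1]
  exact congrArg volume (φ.image_preimage s)

theorem dat [T2Space X] [CompactSpace X] [Finite A.ι] {M : Subgroup Γ} (hM : FI M (B88.MG Z)) :
    Dat D M Z.a := by
  refine ⟨fun p => ?_, fun m hm => B88.a_MG Z (hM.1 hm), fun R => ?_⟩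
  · rw [preimage_univ, inter_univ]
    exact Z.hol p
  · obtain ⟨C, h1, h2⟩ := B88.prop_fi Z hM (isCompact_closedBall (0 : Cn q) R)
    exact ⟨C, h1, fun e he => h2 e (mem_closedBall_zero_iff.2 he)⟩

/-- **FAM** for the second half -/
theorem famStmt_of (h : Fam69.ExStmt) : B88.FamStmt := by
  intro n X _ _ _ _ A _ _ P K Γ _ D _ N _ q Z _ M _ hM H _ _ _ α h0
  have := Cov.A.countable D
  have hd := dat Z hM
  obtain ⟨f, S, E, hE, hf, hl, hm, hx⟩ := h n q X A P K Γ D M Z.a hd H α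
  exact min_of hd (exists_mp Z) (fun g hg => ⟨_, B88.a_H Z (Z.le hg)⟩) α h0 hE hf hl hm hx
    fun S' h' => Fam77.uniq P K hd h' hm


end

end Crest.Agent.X261.FamG
end

-- ▼ part X261/Fam13/Fin
section

/-!
# Row 261, package FAM (helper13), part Fin: all pieces are plugged in
-/

set_option autoImplicit false

namespace Crest.Agent.X261.Fam13

theorem exStmt : Fam69.ExStmt :=
  exStmt_of (Fam11.sum_of Fam.Fs.fs) Fam79.lio Fam.hol Fam20.nrStmt

theorem famStmt : B88.FamStmt := FamG.famStmt_of exStmt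

end Crest.Agent.X261.Fam13
end

-- ▼ part X261/Rel/Null
section

/-!
# X261, package REL (helper36), file `Null`: `f_k - 2 Re Φ` is asymptotically basic

* `Box.lint_s`, `Box.lint_symm` : change of variables between the chart and the box;
* `pprod`, `cont_avg`           : Poincaré inequality along the second factor of a product;
* `Box.null`.
-/

set_option autoImplicit false
set_option linter.unusedSectionVars false

open Set Filter Topology Metric Matrix MeasureTheory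
open scoped ENNReal NNReal ComplexConjugate

noncomputable section

namespace Crest.Agent.X261.Rel.Bx

open Crest.Agent.R275.Geo (Cn dbj)
open Crest.Agent.R275.OmT75 (dj dj_congr expand_fderiv)
open Crest.Agent.R273.Fock_243 (FI eW iW ep)
open Crest.Agent.X261.Plk

theorem lip_of_an {E F : Type*} [NormedAddCommGroup E] [NormedSpace ℂ E] [NormedAddCommGroup F]
    [NormedSpace ℂ F] [CompleteSpace F] {f : E → F} {K : Set E} (hK : IsCompact K)
    (hf : AnalyticOnNhd ℂ f K) : ∃ L, LipschitzOnWith L f K := by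
  refine LocallyLipschitzOn.exists_lipschitzOnWith_of_compact hK fun x hx => ?_
  obtain ⟨L, t, ht, h⟩ := ((hf x hx).contDiffAt (n := 1)).exists_lipschitzOnWith
  exact ⟨L, t, nhdsWithin_le_nhds ht, h⟩

section prod

variable {T K H : Type*} [NormedAddCommGroup T] [NormedSpace ℝ T] [FiniteDimensional ℝ T]
  [MeasurableSpace T] [BorelSpace T] [NormedAddCommGroup K] [NormedSpace ℝ K]
  [FiniteDimensional ℝ K] [MeasurableSpace K] [BorelSpace K]
  (μ : Measure T) [μ.IsAddHaarMeasure] (ν : Measure K) [ν.IsAddHaarMeasure]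
  [NormedAddCommGroup H] [NormedSpace ℝ H] [CompleteSpace H]

theorem cont_avg {O : Set T} (hO : IsOpen O) {ρ : ℝ} (hρ : 0 < ρ) {g : T × K → H}
    (hg : ContinuousOn g (O ×ˢ ball 0 ρ)) :
    ContinuousOn (fun t => ⨍ x in ball (0 : K) (ρ / 2), g (t, x) ∂ν) O := by
  intro t ht
  refine ContinuousAt.continuousWithinAt ?_
  have hb : closedBall (0 : K) (ρ / 2) ⊆ ball 0 ρ := closedBall_subset_ball (half_lt_self hρ)
  have hb' : ball (0 : K) (ρ / 2) ⊆ ball 0 ρ := ball_subset_closedBall.trans hb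
  obtain ⟨ε, hε, h1⟩ := nhds_basis_closedBall.mem_iff.1 (hO.mem_nhds ht)
  obtain ⟨M, hM⟩ := ((isCompact_closedBall t ε).prod
    (isCompact_closedBall (0 : K) (ρ / 2))).exists_bound_of_continuousOn
      (hg.mono (prod_mono h1 hb))
  simp only [setAverage_eq]
  refine ContinuousAt.const_smul ?_ _
  refine continuousAt_of_dominated (bound := fun _ => M) ?_ ?_ ?_ ?_
  · filter_upwards [hO.mem_nhds ht] with y hy
    exact ContinuousOn.aestronglyMeasurable
      (hg.comp (by fun_prop) fun x hx => ⟨hy, hb' hx⟩) measurableSet_ball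
  · filter_upwards [closedBall_mem_nhds t hε] with y hy
    filter_upwards [ae_restrict_mem measurableSet_ball] with x hx
    exact hM (y, x) ⟨hy, ball_subset_closedBall hx⟩
  · exact integrableOn_const measure_ball_lt_top.ne
  · filter_upwards [ae_restrict_mem measurableSet_ball] with x hx
    exact (hg.continuousAt ((hO.prod isOpen_ball).mem_nhds ⟨ht, hb' hx⟩)).comp
      (f := fun y => (y, x)) (by fun_prop)

theorem pprod {O : Set T} (hO : IsOpen O) {ρ : ℝ} (hρ : 0 < ρ) {g : T × K → H}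
    (hg : ContDiffOn ℝ 1 g (O ×ˢ ball 0 ρ)) {h : T × K → ℝ≥0∞}
    (hm : AEMeasurable h ((μ.prod ν).restrict (O ×ˢ ball 0 ρ)))
    (hh : ∀ u ∈ O ×ˢ ball (0 : K) ρ, ‖fderiv ℝ (fun w => g (u.1, w)) u.2‖ₑ ^ 2 ≤ h u) :
    ∫⁻ u in O ×ˢ ball 0 ρ, ‖g u - ⨍ x in ball (0 : K) (ρ / 2), g (u.1, x) ∂ν‖ₑ ^ 2 ∂μ.prod ν ≤
      Rel85.pc ν 0 ρ * ∫⁻ u in O ×ˢ ball 0 ρ, h u ∂μ.prod ν := by
  rw [setLIntegral_prod h hm, ← Measure.prod_restrict,
    ← lintegral_const_mul' _ _ (Rel85.pc_lt_top ν 0 hρ).ne]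
  refine (lintegral_prod_le _).trans (setLIntegral_mono' hO.measurableSet fun t ht => ?_)
  refine (Rel85.poin ν 0 hρ (g := fun w => g (t, w))
    (hg.comp (by fun_prop) fun w hw => ⟨ht, hw⟩)).trans ?_
  exact mul_le_mul_right
    (setLIntegral_mono' measurableSet_ball fun w hw => hh (t, w) ⟨ht, hw⟩) _

end prod

variable {n q : ℕ} {H : Type*} [NormedAddCommGroup H] [NormedSpace ℂ H]

/-- a conjugate linear isometry as a real linear map -/
def Jr (J : H ≃ₗᵢ⋆[ℂ] H) : H →L[ℝ] H :=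
  LinearMap.mkContinuous
    { toFun := J
      map_add' := J.map_add
      map_smul' := fun r x => by
        rw [RingHom.id_apply, ← Complex.coe_smul, ← Complex.coe_smul, J.map_smulₛₗ]
        simp } 1 fun x => by simp


theorem fd_real (J : H ≃ₗᵢ⋆[ℂ] H) {f : Cn n → H} {z : Cn n} (hf : DifferentiableAt ℝ f z)
    (hJ : ∀ᶠ y in 𝓝 z, J (f y) = f y) (v : Cn n) :
    fderiv ℝ f z v = ∑ b, v b • dj b f z + J (∑ b, v b • dj b f z) := by
  have h1 : ∀ x, J (fderiv ℝ f z x) = fderiv ℝ f z x := fun x => by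
    have h2 := ((Jr J).hasFDerivAt.comp z hf.hasFDerivAt).congr_of_eventuallyEq
      (f₁ := f) (hJ.mono fun y hy => hy.symm)
    exact congrArg (fun L => L x) (h2.unique hf.hasFDerivAt)
  have h3 : ∀ b, J (dj b f z) = dbj b f z := fun b => by
    unfold dj dbj
    rw [J.map_smulₛₗ, map_sub, J.map_smulₛₗ, h1, h1]
    simp [map_ofNat]
  rw [expand_fderiv, Finset.sum_add_distrib, map_sum]
  simp only [J.map_smulₛₗ, h3]

theorem cont_dj {f : Cn n → H} {O : Set (Cn n)} (hO : IsOpen O) (hf : ContDiffOn ℝ 1 f O)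
    (b : Fin n) : ContinuousOn (fun z => dj b f z) O := by
  have h := hf.continuousOn_fderiv_of_isOpen hO le_rfl
  exact ((h.clm_apply continuousOn_const).sub
    ((h.clm_apply continuousOn_const).const_smul _)).const_smul _

theorem cont_w1 {τ : Cn n → FI n → ℂ} {η : Cn n → Fin n → H} {O : Set (Cn n)}
    (hτ : ∀ I, ContinuousOn (fun z => τ z I) O) (hη : ∀ b, ContinuousOn (fun z => η z b) O)
    (I : FI n) : ContinuousOn (fun z => w1 (τ z) (η z) I) O :=
  continuousOn_finsetSum _ fun b _ => ContinuousOn.smul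
    (f := fun z => ∑ J, (eW (ep b) : Matrix _ _ ℂ) I J * τ z J)
    (continuousOn_finsetSum _ fun J _ => continuousOn_const.mul (hτ J)) (hη b)

theorem norm_iW_le (J : FI n) : ∃ C : ℝ, 0 ≤ C ∧ ∀ (v : Cn n) (E : FI n → H),
    ‖mv (iW v.ofLp) E J‖ ≤ C * ‖v‖ * ∑ I, ‖E I‖ := by
  refine ⟨∑ b, ∑ I, ‖(iW (ep b) : Matrix _ _ ℂ) J I‖, by positivity, fun v E => ?_⟩
  rw [mv_iW_eq_sum, Finset.sum_mul, Finset.sum_mul]
  refine norm_sum_le_of_le _ fun b _ => ?_
  rw [norm_smul, mul_comm _ ‖v‖, mul_assoc]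
  refine mul_le_mul (PiLp.norm_apply_le v b) (norm_mv_le _ (fun I => ?_) J) (norm_nonneg _)
    (norm_nonneg _)
  exact Finset.single_le_sum (f := fun I => ‖E I‖) (fun _ _ => norm_nonneg _) (Finset.mem_univ I)

namespace Box

variable {a : Cn n → Cn q} {z₀ : Cn n} {U : Set (Cn n)} (B : Box a z₀ U)

theorem an_real {E F : Type*} [NormedAddCommGroup E] [NormedSpace ℂ E] [NormedAddCommGroup F]
    [NormedSpace ℂ F] {f : E → F} {x : E} (h : AnalyticAt ℂ f x) : DifferentiableAt ℝ f x :=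
  h.differentiableAt.restrictScalars ℝ

theorem finrank_eq : Module.finrank ℝ (Cn n) = Module.finrank ℝ (Cn q × Cn B.r) := by
  have hu : B.o ∈ B.s.source := B.sub (mem_closedBall_self B.pos.le)
  have hz := B.s.map_source hu
  refine le_antisymm ?_ ?_
  · exact Rel85.finrank_le_of_inv (θ := B.s.symm) (ψ := B.s) (an_real (B.an_symm _ hz))
      (an_real (B.an _ (B.s.map_target hz))) (B.s.eventually_right_inverse hz)
  · exact Rel85.finrank_le_of_inv (θ := B.s) (ψ := B.s.symm) (an_real (B.an _ hu))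
      (an_real (B.an_symm _ hz)) (B.s.eventually_left_inverse hu)

theorem haar (q r : ℕ) :
    ((volume : Measure (Cn q)).prod (volume : Measure (Cn r))).IsAddHaarMeasure :=
  Measure.prod.instIsAddHaarMeasure _ _

theorem lint_s : ∃ C : ℝ≥0∞, C ≠ ⊤ ∧ ∀ F : Cn n → ℝ≥0∞,
    ∫⁻ u in ball B.o B.ρ, F (B.s u) ∂(volume.prod volume) ≤ C * ∫⁻ z in B.W, F z := by
  have := haar q B.r
  obtain ⟨L, hL⟩ := lip_of_an B.isCompact_K (B.an_symm.mono B.K_sub)
  obtain ⟨C, hC, h⟩ := Rel85.lint_comp_le (volume : Measure (Cn n))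
    ((volume : Measure (Cn q)).prod (volume : Measure (Cn B.r))) B.finrank_eq L
  exact ⟨C, hC, h B.s B.s.symm _ measurableSet_ball (B.s.continuousOn.mono B.sub')
    (fun u hu => B.s.left_inv (B.sub' hu)) (hL.mono B.W_sub_K)⟩

theorem image_W : B.s.symm '' B.W = ball B.o B.ρ := B.s.symm_image_image_of_subset_source B.sub'

theorem lint_symm : ∃ C : ℝ≥0∞, C ≠ ⊤ ∧ ∀ F : Cn q × Cn B.r → ℝ≥0∞,
    ∫⁻ z in B.W, F (B.s.symm z) ≤ C * ∫⁻ u in ball B.o B.ρ, F u ∂(volume.prod volume) := by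
  have := haar q B.r
  obtain ⟨L, hL⟩ := lip_of_an (isCompact_closedBall B.o B.ρ) (B.an.mono B.sub)
  obtain ⟨C, hC, h⟩ := Rel85.lint_comp_le
    ((volume : Measure (Cn q)).prod (volume : Measure (Cn B.r))) (volume : Measure (Cn n))
    B.finrank_eq.symm L
  refine ⟨C, hC, fun F => ?_⟩
  have h1 := h B.s.symm B.s _ B.isOpen_W.measurableSet (B.s.continuousOn_symm.mono B.W_sub)
    (fun z hz => B.s.right_inv (B.W_sub hz))
    (by rw [B.image_W]; exact hL.mono ball_subset_closedBall) F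
  rwa [B.image_W] at h1

/-- the vertical part of `η` is bounded by `η ∧ τ` -/
theorem exists_vert : ∃ C : ℝ, 0 ≤ C ∧ ∀ u ∈ ball B.o B.ρ, ∀ (w : Cn B.r) (η : Fin n → H),
    ‖∑ b, B.V u w b • η b‖ ≤ C * (∑ I, ‖w1 (ta a (B.s u)) η I‖) * ‖w‖ := by
  obtain ⟨C, hC, h⟩ := norm_iW_le (H := H) B.J
  have hc : ContinuousOn (fun u => ‖(ta a (B.s u) B.J)⁻¹‖ * ‖fderiv ℂ B.s u‖)
      (closedBall B.o B.ρ) := fun u hu => by
    have hz := B.s.map_source (B.sub hu)
    exact ((((an_ta (B.an_a hz) B.J).continuousAt.comp (B.s.continuousAt (B.sub hu))).inv₀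
      (B.ne _ hz)).norm.mul (B.an u (B.sub hu)).fderiv.continuousAt.norm).continuousWithinAt
  obtain ⟨M, hM⟩ := (isCompact_closedBall B.o B.ρ).exists_bound_of_continuousOn hc
  have hM0 : 0 ≤ M := (norm_nonneg _).trans (hM _ (mem_closedBall_self B.pos.le))
  refine ⟨C * M, by positivity, fun u hu w η => ?_⟩
  have h1 := (le_abs_self _).trans (hM u (ball_subset_closedBall hu))
  have h2 : ‖fderiv ℂ B.s u (0, w)‖ ≤ ‖fderiv ℂ B.s u‖ * ‖w‖ := by
    simpa using (fderiv ℂ B.s u).le_opNorm (0, w)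
  have h3 := h (fderiv ℂ B.s u (0, w)) (w1 (ta a (B.s u)) η)
  have h4 : 0 ≤ ∑ I, ‖w1 (ta a (B.s u)) η I‖ := by positivity
  rw [B.vert_w1 (B.sub' hu), norm_smul]
  calc _ ≤ ‖(ta a (B.s u) B.J)⁻¹‖ * (C * (‖fderiv ℂ B.s u‖ * ‖w‖) *
        ∑ I, ‖w1 (ta a (B.s u)) η I‖) := by
        gcongr
        exact h3.trans (by gcongr)
    _ = C * (‖(ta a (B.s u) B.J)⁻¹‖ * ‖fderiv ℂ B.s u‖) * (∑ I, ‖w1 (ta a (B.s u)) η I‖) *
        ‖w‖ := by ring
    _ ≤ _ := by gcongr

theorem w1_sub (τ : FI n → ℂ) (η η' : Fin n → H) (I : FI n) :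
    w1 τ (fun b => η b - η' b) I = w1 τ η I - w1 τ η' I := by
  simp only [w1, smul_sub, Finset.sum_sub_distrib]

/-- quantitative form of `null` -/
theorem null_le [CompleteSpace H] (J : H ≃ₗᵢ⋆[ℂ] H) : ∃ C : ℝ≥0∞, C ≠ ⊤ ∧
    ∀ (f Φ : Cn n → H), ContDiffOn ℝ 1 f B.W → (∀ z ∈ B.W, J (f z) = f z) →
      DifferentiableOn ℂ Φ B.W → ∃ c : Cn q → H, ContinuousOn c (ball (a z₀) B.ρ) ∧
      ∫⁻ u in ball B.o B.ρ, ‖f (B.s u) - Φ (B.s u) - J (Φ (B.s u)) - c u.1‖ₑ ^ 2
        ∂(volume.prod volume) ≤ C * ∑ I, ∫⁻ z in B.W, ‖w1 (ta a z) (fun b => dj b f z) I -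
          w1 (ta a z) (fun b => dj b Φ z) I‖ₑ ^ 2 := by
  obtain ⟨C₁, h0, h1⟩ := B.exists_vert (H := H)
  obtain ⟨C₂, h2, h3⟩ := B.lint_s
  set C₃ : ℝ := (2 * C₁) ^ 2 * Fintype.card (FI n) with hC₃
  refine ⟨Rel85.pc volume (0 : Cn B.r) B.ρ * (ENNReal.ofReal C₃ * C₂), ENNReal.mul_ne_top
    (Rel85.pc_lt_top _ _ B.pos).ne (ENNReal.mul_ne_top ENNReal.ofReal_ne_top h2),
    fun f Φ hf hJ hΦ => ?_⟩
  have hΦa := R266.SCV.analyticOnNhd_of_differentiableOn B.isOpen_W hΦ
  have hΦ1 : ContDiffOn ℝ 1 Φ B.W := fun z hz =>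
    (((hΦa z hz).contDiffAt (n := 1)).restrict_scalars ℝ).contDiffWithinAt
  set G : Cn n → H := fun z => f z - Φ z - J (Φ z) with hG
  have hG1 : ContDiffOn ℝ 1 G B.W := (hf.sub hΦ1).sub ((Jr J).contDiff.comp_contDiffOn hΦ1)
  have hs1 : ContDiffOn ℝ 1 B.s (ball B.o B.ρ) := fun u hu =>
    (((B.an u (B.sub' hu)).contDiffAt (n := 1)).restrict_scalars ℝ).contDiffWithinAt
  have hg : ContDiffOn ℝ 1 (fun u => G (B.s u)) (ball B.o B.ρ) :=
    hG1.comp hs1 fun u hu => ⟨u, hu, rfl⟩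
  set E : Cn n → FI n → H := fun z I => w1 (ta a z) (fun b => dj b f z) I -
    w1 (ta a z) (fun b => dj b Φ z) I with hE
  have hτ : ∀ I, ContinuousOn (fun z => ta a z I) B.W := fun I z hz =>
    (an_ta (B.an_a (B.W_sub hz)) I).continuousAt.continuousWithinAt
  have hEc : ∀ I, ContinuousOn (fun z => E z I) B.W := fun I =>
    (cont_w1 hτ (cont_dj B.isOpen_W hf) I).sub (cont_w1 hτ (cont_dj B.isOpen_W hΦ1) I)
  refine ⟨fun t => ⨍ x in ball (0 : Cn B.r) (B.ρ / 2), G (B.s (t, x)),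
    cont_avg volume isOpen_ball B.pos (g := fun u => G (B.s u)) (B.ball_eq ▸ hg.continuousOn), ?_⟩
  have h4 := pprod (volume : Measure (Cn q)) (volume : Measure (Cn B.r)) isOpen_ball B.pos
    (g := fun u => G (B.s u)) (B.ball_eq ▸ hg)
    (h := fun u => ENNReal.ofReal C₃ * ∑ I, ‖E (B.s u) I‖ₑ ^ 2) ?_ ?_
  · rw [← B.ball_eq] at h4
    refine h4.trans ?_
    rw [mul_assoc, mul_assoc, lintegral_const_mul' _ _ ENNReal.ofReal_ne_top]
    gcongr
    refine (h3 fun z => ∑ I, ‖E z I‖ₑ ^ 2).trans (le_of_eq ?_)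
    rw [lintegral_finsetSum' _ fun I _ =>
      (Rel85.aem B.isOpen_W.measurableSet (hEc I)).pow_const 2]
  · rw [← B.ball_eq]
    exact (Finset.aemeasurable_fun_sum _ fun I _ => (Rel85.aem measurableSet_ball
      ((hEc I).comp hs1.continuousOn fun u hu => ⟨u, hu, rfl⟩)).pow_const 2).const_mul _
  · rw [← B.ball_eq]
    rintro ⟨t, w₀⟩ hu
    have hz : B.s (t, w₀) ∈ B.W := ⟨_, hu, rfl⟩
    have hN := B.isOpen_W.mem_nhds hz
    have hfd : DifferentiableAt ℝ f (B.s (t, w₀)) :=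
      (hf.contDiffAt hN).differentiableAt one_ne_zero
    have hΦd := (hΦa _ hz).differentiableAt
    have h5 : HasFDerivAt (fun w => B.s (t, w)) (((fderiv ℂ B.s (t, w₀)).comp
        (ContinuousLinearMap.inr ℂ _ _)).restrictScalars ℝ) w₀ :=
      ((B.an _ (B.sub' hu)).differentiableAt.hasFDerivAt.comp w₀
        (hasFDerivAt_prodMk_right t w₀)).restrictScalars ℝ
    have h6 := ((hfd.hasFDerivAt.fun_sub (hΦd.hasFDerivAt.restrictScalars ℝ)).fun_sub
      ((Jr J).hasFDerivAt.comp _ (hΦd.hasFDerivAt.restrictScalars ℝ))).comp w₀ h5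
    have h7 : ‖fderiv ℝ (fun w => G (B.s (t, w))) w₀‖ ≤ 2 * C₁ * ∑ I, ‖E (B.s (t, w₀)) I‖ := by
      refine ContinuousLinearMap.opNorm_le_bound _ (by positivity) fun w => ?_
      have h8 := h1 _ hu w fun b => dj b f (B.s (t, w₀)) - dj b Φ (B.s (t, w₀))
      simp only [w1_sub] at h8
      set X := ∑ b, B.V (t, w₀) w b • (dj b f (B.s (t, w₀)) - dj b Φ (B.s (t, w₀))) with hX
      have h9 : fderiv ℝ (fun w => G (B.s (t, w))) w₀ w = X + J X := by
        have h10 : fderiv ℂ Φ (B.s (t, w₀)) (fderiv ℂ B.s (t, w₀) (0, w)) =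
            ∑ b, B.V (t, w₀) w b • dj b Φ (B.s (t, w₀)) := by
          simp only [dj_eq_fderiv hΦd]
          rw [← clm_toLp]
          rfl
        have h11 := fd_real J hfd (eventually_of_mem hN hJ) (fderiv ℂ B.s (t, w₀) (0, w))
        have h12 : fderiv ℝ (fun w => G (B.s (t, w))) w₀ w =
            fderiv ℝ f (B.s (t, w₀)) (fderiv ℂ B.s (t, w₀) (0, w)) -
            fderiv ℂ Φ (B.s (t, w₀)) (fderiv ℂ B.s (t, w₀) (0, w)) -
            J (fderiv ℂ Φ (B.s (t, w₀)) (fderiv ℂ B.s (t, w₀) (0, w))) :=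
          congrArg (fun L => L w) h6.fderiv
        rw [h12, h10, h11, hX]
        simp only [smul_sub, Finset.sum_sub_distrib, map_sub, V]
        abel
      rw [h9]
      refine (norm_add_le _ _).trans ?_
      rw [J.norm_map]
      linarith
    have h13 : ‖fderiv ℝ (fun w => G (B.s (t, w))) w₀‖ ^ 2 ≤
        C₃ * ∑ I, ‖E (B.s (t, w₀)) I‖ ^ 2 := by
      refine (pow_le_pow_left₀ (norm_nonneg _) h7 2).trans ?_
      rw [mul_pow, hC₃, mul_assoc]
      gcongr
      exact sq_sum_le_card_mul_sum_sq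
    simp only [← ofReal_norm, ← ENNReal.ofReal_pow (norm_nonneg _)]
    rw [← ENNReal.ofReal_sum_of_nonneg fun _ _ => sq_nonneg _,
      ← ENNReal.ofReal_mul (by positivity)]
    exact ENNReal.ofReal_le_ofReal h13

/-- `f_k - Φ - J Φ` is, up to an `L²`-null sequence, a function of `a` -/
theorem null [CompleteSpace H] (J : H ≃ₗᵢ⋆[ℂ] H) {f : ℕ → Cn n → H} {S : Cn n → FI n → H}
    {Φ : Cn n → H} (hf : ∀ k, ContDiffOn ℝ 1 (f k) B.W) (hJ : ∀ k, ∀ z ∈ B.W, J (f k z) = f k z)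
    (hΦ : DifferentiableOn ℂ Φ B.W) (hS : ∀ z ∈ B.W, S z = w1 (ta a z) fun b => dj b Φ z)
    (lim : ∀ I, Tendsto (fun k => ∫⁻ z in B.K,
      ‖w1 (ta a z) (fun b => dj b (f k) z) I - S z I‖ₑ ^ 2) atTop (𝓝 0)) :
    ∃ c : ℕ → Cn q → H, (∀ k, ContinuousOn (c k) (ball (a z₀) B.ρ)) ∧
      Tendsto (fun k => ∫⁻ u in ball B.o B.ρ,
        ‖f k (B.s u) - Φ (B.s u) - J (Φ (B.s u)) - c k u.1‖ₑ ^ 2 ∂(volume.prod volume))
        atTop (𝓝 0) ∧
      Tendsto (fun k => ∫⁻ z in B.W, ‖f k z - Φ z - J (Φ z) - c k (a z)‖ₑ ^ 2) atTop (𝓝 0) := by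
  obtain ⟨C, hC, h⟩ := B.null_le J
  choose c hc h1 using fun k => h (f k) Φ (hf k) (hJ k) hΦ
  have h2 : Tendsto (fun k => ∫⁻ u in ball B.o B.ρ,
      ‖f k (B.s u) - Φ (B.s u) - J (Φ (B.s u)) - c k u.1‖ₑ ^ 2 ∂(volume.prod volume))
      atTop (𝓝 0) := by
    have h3 := ENNReal.Tendsto.const_mul (a := C)
      (tendsto_finsetSum Finset.univ fun I _ => lim I) (Or.inr hC)
    rw [Finset.sum_const_zero, mul_zero] at h3
    refine tendsto_of_tendsto_of_tendsto_of_le_of_le tendsto_const_nhds h3 (fun _ => zero_le)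
      fun k => (h1 k).trans ?_
    refine mul_le_mul_right (Finset.sum_le_sum fun I _ => ?_) _
    refine le_trans (le_of_eq ?_) (lintegral_mono_set B.W_sub_K)
    exact setLIntegral_congr_fun B.isOpen_W.measurableSet fun z hz => by simp only [hS z hz]
  refine ⟨c, hc, h2, ?_⟩
  obtain ⟨C', hC', h4⟩ := B.lint_symm
  have h5 := ENNReal.Tendsto.const_mul (a := C') h2 (Or.inr hC')
  rw [mul_zero] at h5
  refine tendsto_of_tendsto_of_tendsto_of_le_of_le tendsto_const_nhds h5 (fun _ => zero_le)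
    fun k => le_trans (le_of_eq ?_) (h4 _)
  exact setLIntegral_congr_fun B.isOpen_W.measurableSet fun z hz => by
    simp only [B.s.right_inv (B.W_sub hz), B.a_eq (B.W_sub hz)]

end Box

end Crest.Agent.X261.Rel.Bx
end
end

-- ▼ part X261/Ni/An
section

/-!
# X261 / NI (helper2), file `An`: the periods of the translates along a fibre are bounded
-/

set_option autoImplicit false
set_option linter.unusedSectionVars false

open Set Filter Topology Complex Matrix MeasureTheory Metric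
open scoped ENNReal

namespace Crest.Agent.X261.Ni

open Crest.Agent.R275.Geo
open Crest.Agent.R275.OmT75 (dl dj)
open Crest.Agent.R273.UCov_914
open Crest.Agent.R273.Fock_243 (FI eW ep)
open Crest.Agent.X261.Top (dW)
open Crest.Agent.X261.Plk (w1)
open Crest.Agent.X261.Rel Crest.Agent.X261.Rel.Bx Crest.Agent.X261.Rel85

noncomputable section

variable {n q : ℕ}

section atl

variable {M : Type} [TopologicalSpace M] {B : Atl n M}

theorem cd_atl {i j : B.ι} {x : M} (hi : x ∈ (B.e i).source) (hj : x ∈ (B.e j).source) :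
    ContDiffAt ℝ 1 (fun z => B.e j ((B.e i).symm z)) (B.e i x) := by
  have h1 : IsOpen ((B.e i).target ∩ (B.e i).symm ⁻¹' (B.e j).source) :=
    (B.e i).isOpen_inter_preimage_symm (B.e j).open_source
  exact ((R266.SCV.analyticOnNhd_of_differentiableOn h1 (B.holo i j) _
    ⟨(B.e i).map_source hi, by rwa [mem_preimage, (B.e i).left_inv hi]⟩).contDiffAt).restrict_scalars ℝ

theorem cp_atl {i j : B.ι} {x : M} (hi : x ∈ (B.e i).source) (hj : x ∈ (B.e j).source) :
    Cp (B.e i) (B.e j) x := ⟨hi, hj, cd_atl hi hj, cd_atl hj hi⟩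

theorem cont_of_sm {W : Type*} [NormedAddCommGroup W] [NormedSpace ℝ W] {f : M → W}
    (h : ∀ i, ContinuousOn (fun z => f ((B.e i).symm z)) (B.e i).target) : Continuous f := by
  refine continuous_iff_continuousAt.2 fun x => ?_
  obtain ⟨i, hi⟩ := B.cover x
  refine (((h i).continuousAt ((B.e i).open_target.mem_nhds ((B.e i).map_source hi))).comp
    ((B.e i).continuousAt hi)).congr ?_
  filter_upwards [(B.e i).open_source.mem_nhds hi] with y hy
  simp only [Function.comp, (B.e i).left_inv hy]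

variable {e : OpenPartialHomeomorph M (Cn n)} {x : M} {a : Cn n → Cn q} {U : Set (Cn n)}

theorem box_ctr (Q : Box a (e x) U) : Q.s.symm (e x) = Q.o :=
  (congrArg Q.s.symm Q.ctr).symm.trans (Q.s.left_inv (Q.sub (mem_closedBall_self Q.pos.le)))

theorem cp_box (hx : x ∈ e.source) (Q : Box a (e x) U) : Cp e (e.trans Q.s.symm) x := by
  have h1 : e x ∈ Q.s.target := Q.W_sub Q.mem_W
  have h2 : Q.o ∈ Q.s.source := Q.sub (mem_closedBall_self Q.pos.le)
  refine ⟨hx, ⟨hx, h1⟩, ?_, ?_⟩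
  · refine (((Q.an_symm _ h1).contDiffAt).restrict_scalars ℝ).congr_of_eventuallyEq ?_
    filter_upwards [e.open_target.mem_nhds (e.map_source hx)] with z hz
    exact congrArg Q.s.symm (e.right_inv hz)
  · change ContDiffAt ℝ 1 (fun u => e (e.symm (Q.s u))) (Q.s.symm (e x))
    rw [box_ctr]
    refine (((Q.an _ h2).contDiffAt).restrict_scalars ℝ).congr_of_eventuallyEq ?_
    have h3 : Q.s ⁻¹' e.target ∈ 𝓝 Q.o := Q.s.continuousAt h2 (by
      rw [Box.o, Q.ctr]; exact e.open_target.mem_nhds (e.map_source hx))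
    filter_upwards [h3] with u hu
    exact e.right_inv hu

end atl

theorem sq_add_le (a b : ℝ≥0∞) : (a + b) ^ 2 ≤ 4 * a ^ 2 + 4 * b ^ 2 := by
  rcases le_total a b with h | h
  · calc (a + b) ^ 2 ≤ (b + b) ^ 2 := by gcongr
      _ = 4 * b ^ 2 := by ring
      _ ≤ _ := le_add_self
  · calc (a + b) ^ 2 ≤ (a + a) ^ 2 := by gcongr
      _ = 4 * a ^ 2 := by ring
      _ ≤ _ := le_self_add

variable {H : Type} [NormedAddCommGroup H] [InnerProductSpace ℂ H] [CompleteSpace H]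

theorem bt_congr {ι E : Type*} {l : Filter ι} [NormedAddCommGroup E] [MeasurableSpace E]
    [BorelSpace E] {μ : Measure E} {t : E} {d d' : ι → E → H} (h : Bt l μ t d)
    (hh : ∀ᶠ z in 𝓝 t, ∀ j, d j z = d' j z) : Bt l μ t d' := by
  obtain ⟨V, hV, h1⟩ := h
  obtain ⟨O, h2, h3, h4⟩ := _root_.eventually_nhds_iff.1 (hh.and hV)
  exact ⟨O, h3.mem_nhds h4, h1.of_le fun j => le_trans (le_of_eq (setLIntegral_congr_fun
    h3.measurableSet fun z hz => by simp only [(h2 z hz).1 j]))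
    (lintegral_mono_set fun z hz => (h2 z hz).2)⟩

/-- the local estimate in a box -/
theorem box_bd {ι : Type*} {l : Filter ι} {a : Cn n → Cn q} {z₀ : Cn n} {U : Set (Cn n)}
    (Q : Box a z₀ U) (J : H ≃ₗᵢ⋆[ℂ] H) {f : ι → Cn n → H} (hf : ∀ j, ContDiffOn ℝ 1 (f j) Q.W)
    (hJ : ∀ j z, J (f j z) = f j z)
    (h : ∀ I, Bu l fun j => ∫⁻ z in Q.W, ‖w1 (ta a z) (fun b => dj b (f j) z) I‖ₑ ^ 2) :
    ∃ c : ι → Cn q → H, Cn' (a z₀) c ∧
      Bt l (volume.prod volume) Q.o fun j u => f j (Q.s u) - c j u.1 := by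
  obtain ⟨C, hC, h1⟩ := Q.null_le J
  choose c h2 h3 using fun j => h1 (f j) (fun _ => 0) (hf j) (fun z _ => hJ j z)
    (differentiableOn_const 0)
  have := Box.haar q Q.r
  refine ⟨c, ⟨_, ball_mem_nhds _ Q.pos, h2⟩, _, ball_mem_nhds _ Q.pos, Bu.of_sq
    ((((Bu.sum Finset.univ fun I _ => h I).mul hC).mul (measure_ball_lt_top
      (μ := volume.prod volume) (x := Q.o) (r := Q.ρ)).ne).of_le fun j => ?_)⟩
  have h4 : ContinuousOn (fun u => f j (Q.s u) - c j u.1) (ball Q.o Q.ρ) :=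
    ((hf j).continuousOn.comp (Q.s.continuousOn.mono Q.sub') (mapsTo_image _ _)).sub
      ((h2 j).comp continuousOn_fst fun u hu => (Q.ball_eq ▸ hu).1)
  refine (sq_lintegral_le _ (aem measurableSet_ball h4)).trans ?_
  rw [Measure.restrict_apply_univ]
  refine mul_le_mul_right ?_ _
  simpa [dj, w1] using h3 j

variable {X : Type} [TopologicalSpace X] {A : Atl n X} {G : Type} [Group G]
variable {D : MonD A G} {al : D.cov G → Cn q} {L : G → Cn q →L[ℂ] Cn q} {lam : G → Cn q}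

theorem ta_eq (i : A.ι) (v : G) {z : Cn n} (hz : z ∈ (A.e i).target) :
    ta (fun z => aV D al i v ((A.e i).symm z)) z = dW A i (aV D al i v) ((A.e i).symm z) := by
  unfold dW dl
  rw [(A.e i).right_inv hz]
  rfl

theorem w1_eq (f : D.cov G → H) (i : A.ι) (v : G) {z : Cn n} (hz : z ∈ (A.e i).target) (I : FI n) :
    w1 (ta (fun z => aV D al i v ((A.e i).symm z)) z)
      (fun b => dj b (fun z => aV D f i v ((A.e i).symm z)) z) I =
      Rel.tw D al f i v ((A.e i).symm z) I := by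
  unfold Rel.tw dl
  rw [(A.e i).right_inv hz, ta_eq i v hz]
  rfl

/-- `∀ g, ∀ᶠ k` -/
def fl (G : Type) : Filter (G × ℕ) := ⨆ g, map (Prod.mk g) atTop

theorem ev_fl {P : G × ℕ → Prop} : (∀ᶠ j in fl G, P j) ↔ ∀ g, ∀ᶠ k in atTop, P (g, k) := by
  simp only [fl, eventually_iSup, eventually_map]

/-- locally bounded on the cover -/
def Bg (D : MonD A G) (x : D.cov G) (h : G × ℕ → D.cov G → H) : Prop :=
  ∃ p, x ∈ ((D.atl G).e p).source ∧ Bo (fl G) volume ((D.atl G).e p) x h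

theorem Bg.all {x : D.cov G} {h : G × ℕ → D.cov G → H} (hh : Bg D x h) {p : (D.atl G).ι}
    (hp : x ∈ ((D.atl G).e p).source) : Bo (fl G) volume ((D.atl G).e p) x h := by
  obtain ⟨p', h1, h2⟩ := hh
  exact h2.trans (cp_atl h1 hp)

theorem Bg.sub {x : D.cov G} {h h' : G × ℕ → D.cov G → H} (h1 : Bg D x h) (h2 : Bg D x h')
    (hc : Cn' x h) : Bg D x fun j y => h j y - h' j y := by
  obtain ⟨p, h3, h4⟩ := h1
  exact ⟨p, h3, h4.sub (h2.all h3) h3 hc⟩

theorem Bg.deck {x : D.cov G} {h : G × ℕ → D.cov G → H} {m : G} (h1 : Bg D (m • x) h) :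
    Bg D x fun j y => h j (m • y) := by
  obtain ⟨p, h2, h3⟩ := h1
  refine ⟨(p.1, p.2 * m), D.deck_mem_sheet.1 h2, ?_⟩
  change Bt _ _ _ fun j z => h j (m • D.pt p.1 (p.2 * m) _)
  simp only [D.deck_pt, mul_inv_cancel_right]
  exact h3

theorem bg_box {x : D.cov G} {p : (D.atl G).ι} (hp : x ∈ ((D.atl G).e p).source) {U : Set (Cn n)}
    {a : Cn n → Cn q} (Q : Box a ((D.atl G).e p x) U) {h : G × ℕ → D.cov G → H} :
    Bg D x h ↔ Bo (fl G) (volume.prod volume) (((D.atl G).e p).trans Q.s.symm) x h :=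
  have := Box.haar q Q.r
  ⟨fun h1 => (h1.all hp).trans (cp_box hp Q), fun h1 => ⟨p, hp, h1.trans (cp_box hp Q).symm⟩⟩

/-- **bounded periods** -/
theorem Aff.bdd (h : Aff D al L lam) {f : ℕ → D.cov G → H} {S : A.ι → G → X → FI n → H}
    (hl : Lim D al f S) (hu : Up D al S) (J : H ≃ₗᵢ⋆[ℂ] H) (hJ : ∀ k e, J (f k e) = f k e)
    {x : D.cov G} (hY : IsPreconnected (al ⁻¹' {al x}))
    (reg : ∀ i v, ∀ y ∈ (A.e i).source, al (D.pt i v y) = al x → dW A i (aV D al i v) y ≠ 0)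
    {m : G} (hm : ∀ e, al (m • e) = al e) {β : G → H}
    (hβ : ∀ g k e, f k (g • m • e) = f k (g • e) + β g) : ∃ C : ℝ, ∀ g, ‖β g‖ ≤ C := by
  have ha : Continuous al := cont_of_sm (B := D.atl G) fun p => (h.hol p).continuousOn
  have hF : ∀ j : G × ℕ, Continuous fun e => f j.2 (j.1 • e) := fun j =>
    (cont_of_sm (B := D.atl G) fun p => (hl.f_sm j.2 p).continuousOn).comp (continuous_const_smul _)
  have hb : ∀ y ∈ al ⁻¹' {al x}, ∀ p : (D.atl G).ι, y ∈ ((D.atl G).e p).source → Nonempty (Box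
      (fun z => aV D al p.1 p.2 ((A.e p.1).symm z)) ((D.atl G).e p y) (A.e p.1).target) :=
    fun y hy p hp => exists_box (A.e p.1).open_target ((A.e p.1).map_source hp.1) (h.diff p.1 p.2)
      ((ta_eq p.1 p.2 ((A.e p.1).map_source hp.1)).trans_ne (by
        rw [(A.e p.1).left_inv hp.1]
        exact reg _ _ _ hp.1 ((congrArg al (D.pt_of_mem hp)).trans hy)))
  obtain ⟨c, h1, h2, h3⟩ := chain (B := Bg D) (B' := Bt (fl G) volume (al x)) (H := H) ha hY
    (fun _ hy => hy) hF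
    (fun y _ ⟨p, h1, h2⟩ => ((h2.ev h1).and (((D.atl G).e p).open_source.mem_nhds h1)).mono
      fun _ hz => ⟨p, hz.2, hz.1⟩)
    (fun _ _ _ => Bg.sub) (fun y hy d hd => by
      obtain ⟨p, hp⟩ := (D.atl G).cover y
      obtain ⟨Q⟩ := hb y hy p hp
      have := Box.haar q Q.r
      rw [← show al y = al x from hy] at hd ⊢
      exact (bg_box hp Q).trans (bo_fst (cp_box hp Q).mem' (fun u hu => Q.fst u hu.1) hd))
    (fun y hy => by
      obtain ⟨p, hp⟩ := (D.atl G).cover y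
      obtain ⟨Q⟩ := hb y hy p hp
      obtain ⟨C, hC⟩ := h.bd_tr hl.S_hol hu p.1 ((A.e p.1).map_source hp.1)
      obtain ⟨ρ, h0, h1, h2⟩ := Q.exists_shrink hC
      set Q' := Q.shrink h0 h1
      obtain ⟨c, h3, h4⟩ := box_bd (l := fl G) Q' J
        (f := fun j z => aV D (fun e => f j.2 (j.1 • e)) p.1 p.2 ((A.e p.1).symm z))
        (fun j => ((sm_deck (hl.f_sm j.2) j.1 p).of_le (by simp)).mono Q'.W_sub_U)
        (fun j z => hJ _ _) fun I => ⟨4 * 1 + 4 * ENNReal.ofReal C ^ 2 * volume Q'.K,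
          (by have := Q'.isCompact_K.measure_lt_top (μ := volume); finiteness), ev_fl.2 fun g => by
          filter_upwards [((h.lim_tr hl g).lim p.1 p.2 _ Q'.K_sub_U Q'.isCompact_K I).eventually
            (ge_mem_nhds zero_lt_one)] with k hk
          refine (lintegral_mono_set Q'.W_sub_K).trans (le_trans ?_ (add_le_add
            (mul_le_mul_right hk 4) le_rfl))
          rw [← lintegral_const_mul' _ _ (by simp), ← setLIntegral_const,
            ← lintegral_add_right _ measurable_const]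
          refine setLIntegral_mono' Q'.isCompact_K.measurableSet fun z hz => ?_
          rw [w1_eq _ _ _ (Q'.K_sub_U hz)]
          refine le_trans ?_ (sq_add_le _ _)
          refine pow_le_pow_left' ?_ 2
          refine le_trans (by rw [sub_add_cancel]) ((enorm_add_le _
            (trS L S g p.1 p.2 ((A.e p.1).symm z) I)).trans (add_le_add le_rfl ?_))
          rw [← ofReal_norm]
          exact ENNReal.ofReal_le_ofReal (h2 hz g p.2 I)⟩
      have h5 : aV D al p.1 p.2 ((A.e p.1).symm ((D.atl G).e p y)) = al x :=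
        (congrArg al (((D.atl G).e p).left_inv hp)).trans hy
      refine ⟨c, h5 ▸ h3, (bg_box hp Q').2 ?_⟩
      change Bt _ _ (Q'.s.symm ((D.atl G).e p y)) _
      rw [box_ctr Q']
      refine bt_congr h4 ?_
      filter_upwards [Q'.s.open_source.mem_nhds (Q'.sub (mem_closedBall_self Q'.pos.le))]
        with u hu j
      exact congrArg (fun t => _ - c j t) (Q'.fst u hu).symm)
    (x := x) (y := m • x) rfl (hm x)
  have h4 := h3.deck.sub h2 (Cn'.sub ⟨univ, univ_mem, fun j =>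
    ((hF j).comp (continuous_const_smul m)).continuousOn⟩
    (Cn'.comp (by rwa [hm]) univ_mem (ha.comp (continuous_const_smul m)).continuousOn))
  simp only [hm, hβ, sub_sub_sub_cancel_right, add_sub_cancel_left] at h4
  obtain ⟨p, -, h5⟩ := h4
  obtain ⟨C, hC⟩ := Bt.const h5
  exact ⟨C, fun g => (ev_fl.1 hC g).exists.choose_spec⟩

end

end Crest.Agent.X261.Ni
end

-- ▼ part X261/Ni/Alg
section

/-!
# X261 / NI (helper2), file `Alg`: bounded orbits of characters imply that `K` is not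
virtually indicable
-/

set_option autoImplicit false

open Set
open scoped commutatorElement

namespace Crest.Agent.X261.Ni

open Crest.Agent.X261.Grp

/-- an integral character of a finitely generated normal subgroup with bounded orbits is
invariant under a finite index subgroup -/
theorem exists_stab {G : Type*} [Group G] {K : Subgroup G} [hn : K.Normal] (hK : K.FG)
    {c : G → ℤ} (hc : AddOn K c) (hb : ∀ k ∈ K, ∃ C : ℝ, ∀ g, |(c (g * k * g⁻¹) : ℝ)| ≤ C) :
    ∃ St : Subgroup G, St.FiniteIndex ∧ ∀ g ∈ St, ∀ k ∈ K, c (g * k * g⁻¹) = c k := by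
  obtain ⟨S, hS⟩ := hK
  have hS' : ∀ s : S, (s : G) ∈ K := fun s => hS ▸ Subgroup.subset_closure s.2
  have ha : ∀ g, AddOn K fun k => c (g⁻¹ * k * g) := fun g x hx y hy => by
    have h1 := hc _ (hn.conj_mem' x hx g) _ (hn.conj_mem' y hy g)
    rwa [show g⁻¹ * x * g * (g⁻¹ * y * g) = g⁻¹ * (x * y) * g by group] at h1
  let St : Subgroup G :=
    { carrier := {g | ∀ k ∈ K, c (g * k * g⁻¹) = c k}
      one_mem' := fun k _ => by simp
      mul_mem' := fun {g h} hg hh k hk => by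
        rw [← hh k hk, ← hg _ (hn.conj_mem k hk h)]
        congr 1
        group
      inv_mem' := fun {g} hg k hk => by
        rw [← hg _ (hn.conj_mem k hk g⁻¹)]
        congr 1
        group }
  refine ⟨St, FI.top_iff.1 (FI.of_finite_map le_top (fun g (s : S) => c (g⁻¹ * s * g)) ?_
    fun x _ y _ h k hk => ?_), fun g hg => hg⟩
  · choose C hC using fun s : S => hb s (hS' s)
    refine (Set.Finite.pi' fun s : S => Set.finite_Icc (-⌈C s⌉) ⌈C s⌉).subset ?_
    rintro _ ⟨g, -, rfl⟩ s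
    have h1 := hC s g⁻¹
    rw [inv_inv] at h1
    have h2 : |c (g⁻¹ * s * g)| ≤ ⌈C s⌉ := by
      exact_mod_cast h1.trans (Int.le_ceil _)
    exact abs_le.1 h2
  · have key : ∀ k ∈ K, c (x⁻¹ * k * x) = c (y⁻¹ * k * y) := fun k hk => by
      have hk' := hk
      rw [← hS] at hk'
      induction hk' using Subgroup.closure_induction with
      | mem s hs => exact congrFun h ⟨s, hs⟩
      | one => exact (ha x).one.trans (ha y).one.symm
      | mul a b h1 h2 h3 h4 =>
        rw [hS] at h1 h2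
        exact (ha x a h1 b h2).trans ((congrArg₂ (· + ·) (h3 h1) (h4 h2)).trans
          (ha y a h1 b h2).symm)
      | inv a h1 h2 =>
        rw [hS] at h1
        exact ((ha x).inv h1).trans ((congrArg Neg.neg (h2 h1)).trans ((ha y).inv h1).symm)
    have h1 := key _ (hn.conj_mem k hk y)
    rw [show y⁻¹ * (y * k * y⁻¹) * y = k by group] at h1
    rw [← h1]
    congr 1
    group

/-- bounded orbits: every real character of a normal finite index subgroup of `M` which kills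
`N` is bounded on the conjugacy classes of `Γ` -/
def Bdd {Γ : Type*} [Group Γ] (M N : Subgroup Γ) : Prop :=
  ∀ M1 : Subgroup Γ, M1.Normal → FI M1 M → ∀ b : Γ → ℝ, AddOn M1 b →
    (∀ m ∈ M1, m ∈ N → b m = 0) → ∀ m ∈ M1, ∃ C : ℝ, ∀ g, |b (g * m * g⁻¹)| ≤ C

/-- **NI**, the algebraic part -/
theorem ni_of_bdd {Γ : Type*} [Group Γ] {V : Type*} [NormedAddCommGroup V] [NormedSpace ℝ V]
    [FiniteDimensional ℝ V] {N M H : Subgroup Γ} [N.Normal] [hM : M.Normal] [H.FiniteIndex]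
    (hJ : JN (Γ ⧸ N)) (hfg : M.FG) (hN : N ≤ H) {lam : Γ → V} (hl : AddOn H lam)
    (h0 : ∀ m ∈ M, m ∈ H → lam m = 0)
    (maxb : ∀ H2 : Subgroup Γ, FI H2 H → N ≤ H2 → ∀ φ : Γ → ℝ, AddOn H2 φ →
      (∀ g ∈ N, φ g = 0) → ∃ l : V →L[ℝ] ℝ, ∀ g ∈ H2, φ g = l (lam g))
    (inj : ∀ l : V →L[ℝ] ℝ, (∀ g ∈ H, l (lam g) = 0) → l = 0)
    (heis : ∀ H2 : Subgroup Γ, FI H2 H → ∀ (B : V →L[ℝ] V →L[ℝ] ℝ) (β : Γ → ℝ),
      (∀ g ∈ H2, ∀ h ∈ H2, β (g * h) = β g + β h + B (lam g) (lam h)) → ∀ v w, B v w = B w v)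
    (bdd : Bdd M N) : ¬VInd (M.map (QuotientGroup.mk' N)) := by
  set π := QuotientGroup.mk' N with hπ
  have hs : Function.Surjective π := QuotientGroup.mk'_surjective N
  have hN1 : ∀ m ∈ N, π m = 1 := fun m hm => (QuotientGroup.eq_one_iff m).2 hm
  have hN2 : ∀ L : Subgroup (Γ ⧸ N), N ≤ L.comap π := fun L m hm =>
    Subgroup.mem_comap.2 (by rw [hN1 m hm]; exact L.one_mem)
  have hfg' : (M.map π).FG := by
    classical
    obtain ⟨S, rfl⟩ := hfg
    exact ⟨S.image π, by rw [Finset.coe_image, MonoidHom.map_closure]⟩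
  rintro ⟨K', h1, b0, h2, x, hx, h3⟩
  have := hM.map π hs
  obtain ⟨K, hK, h4, h5⟩ := h1.exists_normal hfg'
  obtain ⟨y, hy, h6⟩ : ∃ y ∈ K, b0 y ≠ 0 := by
    by_contra h
    push Not at h
    exact h3 (h2.eq_zero_of_fi (h5.of_le' h4 h1.le) h hx)
  obtain ⟨k, φ, h7, h8⟩ := End.exists_coord (h5.fg hfg') (h2.mono h4)
  obtain ⟨i, h9⟩ := not_forall.1 fun h => h6 ((h8 y hy).2 h)
  have hb : AddOn (K.comap π) fun g => (φ i (π g) : ℝ) := fun g hg h hh => by
    simp only [map_mul, h7 i _ hg _ hh, Int.cast_add]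
  have hb0 : ∀ m ∈ N, (φ i (π m) : ℝ) = 0 := fun m hm => by
    rw [hN1 m hm, (h7 i).one, Int.cast_zero]
  have h10 : FI (K.comap π ⊓ M) M := (h5.comap π).inf_right (M.le_comap_map π)
  obtain ⟨St, h11, h12⟩ := exists_stab (h5.fg hfg') (h7 i) fun k hk => by
    obtain ⟨m, hm, rfl⟩ := h5.le hk
    obtain ⟨C, hC⟩ := bdd _ inferInstance h10 _ (hb.mono inf_le_left) (fun m _ => hb0 m) m ⟨hk, hm⟩
    refine ⟨C, fun g => ?_⟩
    obtain ⟨g, rfl⟩ := hs g
    simpa only [map_mul, map_inv] using hC g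
  obtain ⟨Q, h13, h14⟩ := hJ.quot K hK (by
    rintro rfl
    exact h9 (by rw [Subgroup.mem_bot.1 hy, (h7 i).one]))
  have h15 : FI ((St ⊓ Q).comap π) ⊤ := by
    simpa using (FI.of_finiteIndex (St ⊓ Q)).comap π
  have h16 : FI ((St ⊓ Q).comap π ⊓ H) H := h15.inf_right le_top
  have h17 : N ≤ (St ⊓ Q).comap π ⊓ H := le_inf (hN2 _) hN
  obtain ⟨l, h18⟩ := End.e3 (H := (St ⊓ Q).comap π ⊓ H) (N := N) (lam := lam)
    (M1 := K.comap π ⊓ ((St ⊓ Q).comap π ⊓ H)) inf_le_right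
    (fun g hg h hh => ⟨Subgroup.mem_comap.2 (by
      rw [map_commutatorElement]; exact h14 _ hg.1.2 _ hh.1.2),
      comm_self_le _ (Subgroup.commutator_mem_commutator hg hh)⟩)
    (hb.mono inf_le_left)
    (fun g hg m hm => by simp only [map_mul, map_inv, h12 _ hg.1.1 _ hm.1])
    (le_inf (hN2 _) h17)
    hb0 (maxb _ h16 h17)
    (fun l h => inj l fun g hg => AddOn.eq_zero_of_fi (b := fun g => l (lam g))
      (fun a ha b hb => by simp only [hl a ha b hb, map_add]) h16 h hg)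
    (heis _ h16)
  obtain ⟨m, hm, rfl⟩ := h5.le hy
  have h19 : FI (((St ⊓ Q).comap π ⊓ H) ⊓ (K.comap π ⊓ M)) (K.comap π ⊓ M) :=
    (h16.trans (FI.of_finiteIndex H)).inf_right le_top
  have h20 := (hb.mono (inf_le_left (b := M))).eq_zero_of_fi h19 (fun g hg => by
    rw [h18 g ⟨hg.2.1, hg.1⟩, h0 g hg.2.2 hg.1.2, map_zero]) (x := m) ⟨hy, hm⟩
  exact h9 (by exact_mod_cast h20)

end Crest.Agent.X261.Ni
end

-- ▼ part X261/Ni/Bd
section

/-!
# X261 / NI (helper2), file `Bd`: bounded orbits of characters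
-/

set_option autoImplicit false

open Set

namespace Crest.Agent.X261.Ni

open Crest.Agent.R275.Geo Crest.Agent.R273.UCov_914
open Crest.Agent.X261.Top (dW)
open Crest.Agent.X261.Grp Crest.Agent.X261.Rel Crest.Agent.X261.Rel.Act

noncomputable section

/-- the translation action of a real character -/
def tra {Γ : Type} [Group Γ] {M : Subgroup Γ} {b : Γ → ℝ} (hb : AddOn M b) : Act M ℂ where
  π := 1
  J := starₗᵢ ℂ
  JJ x := star_star x
  Jπ _ _ := rfl
  b m := (b m : ℂ)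
  Jb m := Complex.conj_ofReal _
  coc g h := by
    rw [Subgroup.coe_mul, hb _ g.2 _ h.2, Complex.ofReal_add]
    rfl

theorem tra_α {Γ : Type} [Group Γ] {M : Subgroup Γ} {b : Γ → ℝ} (hb : AddOn M b) (m : M) (x : ℂ) :
    (tra hb).α m x = x + b m := rfl

variable {n q : ℕ} {X : Type} [TopologicalSpace X] {A : Atl n X} {G : Type} [Group G]
  {D : MonD A G} {al : D.cov G → Cn q} {L : G → Cn q →L[ℂ] Cn q} {lam : G → Cn q}

theorem Aff.bdd_of (h : Aff D al L lam) {M N : Subgroup G} (hM : ∀ m ∈ M, ∀ e, al (m • e) = al e)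
    {x : D.cov G} (hY : IsPreconnected (al ⁻¹' {al x}))
    (reg : ∀ i v, ∀ y ∈ (A.e i).source, al (D.pt i v y) = al x → dW A i (aV D al i v) y ≠ 0)
    (fam : ∀ M1 : Subgroup G, M1.Normal → FI M1 M → ∀ a : Act M1 ℂ,
      (∀ m : M1, (m : G) ∈ N → ∀ x, a.α m x = x) → Nonempty (Min D al a N)) : Bdd M N := by
  intro M1 h1 h2 b hb h0 m hm
  obtain ⟨Q⟩ := fam M1 h1 h2 (tra hb) fun m hm x => by
    rw [tra_α, h0 m m.2 hm, Complex.ofReal_zero, add_zero]
  obtain ⟨C, hC⟩ := h.bdd Q.lim Q.up _ Q.f_re hY reg (hM m (h2.le hm))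
    (β := fun g => (b (g * m * g⁻¹) : ℂ)) fun g k e => by
      have h3 := Q.f_eqv k ⟨_, h1.conj_mem m hm g⟩ (g • e)
      rw [tra_α] at h3
      rw [← h3, smul_smul, smul_smul, inv_mul_cancel_right]
  exact ⟨C, fun g => by simpa using hC g⟩

end

end Crest.Agent.X261.Ni
end

-- ▼ part X261/Ni/Main
section

/-!
# X261 / NI (helper2), file `Main`: the image of the fibre group is not virtually indicable
-/

set_option autoImplicit false

namespace Crest.Agent.X261.Ni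

open Crest.Agent.X261.B88

/-- **B4** -/
theorem niStmt : NIStmt := by
  intro hF n X _ _ _ _ A _ hA P K Γ _ D hc N _ hJ q Z hT hb
  have := Z.fi
  have hfg := fg_MG hb
  obtain ⟨O, -, ⟨t, ht⟩, h1⟩ := hb
  obtain ⟨⟨x, rfl⟩, h2, h3⟩ := h1 t ht
  have h4 : Aff D Z.a (fun g => Z.L g) Z.lam := ⟨Z.hol, Z.eqv, Z.det⟩
  exact ni_of_bdd hJ hfg Z.le Z.add (fun m hm _ => ((mem_MG Z).1 hm).2) Z.maxb Z.inj
    (fun _ h => Z.heis P K hT h)
    (h4.bdd_of (fun _ hm => a_MG Z hm) h2 (fun _ _ _ hy h => dW_ne Z hy (h3 _ h))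
      fun M1 h5 h6 => hF n X A hA P K Γ D hc N q Z hT M1 h5 h6 ℂ)

end Crest.Agent.X261.Ni
end

-- ▼ part X261/Rel/Nz
section

/-!
# X261, package REL (helper34), file `Nz`: sequences which tend to zero in `L¹_loc`

`NulS μ K F`: the upper integrals of `F k` over `K` tend to zero; `NulE μ F y`: the same on a
neighbourhood of `y`.
-/

set_option autoImplicit false
set_option linter.unusedSectionVars false

open Set Filter Topology MeasureTheory
open scoped ENNReal

namespace Crest.Agent.X261.Rel.Nz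

noncomputable section

section S

variable {E : Type*} [MeasurableSpace E] {μ : Measure E} {K K' : Set E} {F F' : ℕ → E → ℝ≥0∞}

/-- the upper integrals over `K` tend to zero -/
def NulS (μ : Measure E) (K : Set E) (F : ℕ → E → ℝ≥0∞) : Prop :=
  ∃ G : ℕ → E → ℝ≥0∞, (∀ k, Measurable (G k)) ∧ (∀ k, ∀ y ∈ K, F k y ≤ G k y) ∧
    Tendsto (fun k => ∫⁻ y in K, G k y ∂μ) atTop (𝓝 0)

theorem NulS.mono (h : NulS μ K F) (hK : K' ⊆ K) (hF : ∀ k, ∀ y ∈ K', F' k y ≤ F k y) :
    NulS μ K' F' := by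
  obtain ⟨G, h1, h2, h3⟩ := h
  exact ⟨G, h1, fun k y hy => (hF k y hy).trans (h2 k y (hK hy)),
    tendsto_of_tendsto_of_tendsto_of_le_of_le tendsto_const_nhds h3 (fun _ => zero_le)
      fun k => lintegral_mono_set hK⟩

theorem NulS.add (h : NulS μ K F) (h' : NulS μ K F') : NulS μ K fun k y => F k y + F' k y := by
  obtain ⟨G, h1, h2, h3⟩ := h
  obtain ⟨G', h1', h2', h3'⟩ := h'
  refine ⟨fun k y => G k y + G' k y, fun k => (h1 k).add (h1' k),
    fun k y hy => add_le_add (h2 k y hy) (h2' k y hy), ?_⟩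
  simpa only [lintegral_add_left (h1 _), add_zero] using h3.add h3'

theorem NulS.mul (h : NulS μ K F) {c : ℝ≥0∞} (hc : c ≠ ⊤) : NulS μ K fun k y => c * F k y := by
  obtain ⟨G, h1, h2, h3⟩ := h
  refine ⟨fun k y => c * G k y, fun k => (h1 k).const_mul c,
    fun k y hy => mul_le_mul_right (h2 k y hy) c, ?_⟩
  simpa only [lintegral_const_mul c (h1 _), mul_zero] using
    ENNReal.Tendsto.const_mul h3 (Or.inr hc)

theorem NulS.union (h : NulS μ K F) (h' : NulS μ K' F) (hK : MeasurableSet K) :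
    NulS μ (K ∪ K') F := by
  classical
  obtain ⟨G, h1, h2, h3⟩ := h
  obtain ⟨G', h1', h2', h3'⟩ := h'
  refine ⟨fun k => K.piecewise (G k) (G' k), fun k => (h1 k).piecewise hK (h1' k),
    fun k y hy => ?_, ?_⟩
  · beta_reduce
    by_cases h : y ∈ K
    · rw [piecewise_eq_of_mem _ _ _ h]; exact h2 k y h
    · rw [piecewise_eq_of_notMem _ _ _ h]; exact h2' k y (hy.resolve_left h)
  · have := h3.add h3'
    rw [add_zero] at this
    refine tendsto_of_tendsto_of_tendsto_of_le_of_le tendsto_const_nhds this (fun _ => zero_le)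
      fun k => ?_
    have e : K ∪ K' = K ∪ (K' ∩ Kᶜ) := by rw [← sdiff_eq, union_sdiff_self]
    rw [e]
    refine (lintegral_union_le _ _ _).trans (add_le_add ?_ ?_)
    · exact (setLIntegral_congr_fun hK (piecewise_eqOn K (G k) (G' k))).le
    · beta_reduce
      rw [inter_comm, ← Measure.restrict_restrict hK.compl,
        setLIntegral_congr_fun hK.compl (piecewise_eqOn_compl K (G k) (G' k))]
      exact setLIntegral_le_lintegral _ _

theorem nulS_of_ae (hF : ∀ k, AEMeasurable (F k) (μ.restrict K))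
    (h : Tendsto (fun k => ∫⁻ y in K, F k y ∂μ) atTop (𝓝 0)) : NulS μ K F := by
  classical
  have h1 : ∀ k, ∃ N, MeasurableSet N ∧ μ.restrict K N = 0 ∧ ∀ y ∉ N, F k y = (hF k).mk _ y :=
    fun k => ⟨toMeasurable (μ.restrict K) {y | F k y = (hF k).mk _ y}ᶜ,
      measurableSet_toMeasurable _ _, by rw [measure_toMeasurable]; exact (hF k).ae_eq_mk,
      fun y hy => by_contra fun h => hy (subset_toMeasurable _ _ h)⟩
  choose N hN h0 hy using h1
  refine ⟨fun k => (N k).piecewise (fun _ => ⊤) ((hF k).mk _),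
    fun k => measurable_const.piecewise (hN k) (hF k).measurable_mk, fun k y _ => ?_,
    h.congr fun k => lintegral_congr_ae ?_⟩
  · beta_reduce
    by_cases h : y ∈ N k
    · rw [piecewise_eq_of_mem _ _ _ h]; exact le_top
    · rw [piecewise_eq_of_notMem _ _ _ h]; exact (hy k y h).le
  · filter_upwards [compl_mem_ae_iff.2 (h0 k)] with y h
    rw [piecewise_eq_of_notMem _ _ _ h]
    exact hy k y h

theorem nulS_of_sq (hK : μ K ≠ ⊤) (hF : ∀ k, AEMeasurable (F k) (μ.restrict K))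
    (h : Tendsto (fun k => ∫⁻ y in K, F k y ^ 2 ∂μ) atTop (𝓝 0)) : NulS μ K F := by
  refine nulS_of_ae hF ?_
  have h1 : Tendsto (fun k => (∫⁻ y in K, F k y ^ 2 ∂μ) ^ (1 / 2 : ℝ) * μ K ^ (1 / 2 : ℝ)) atTop
      (𝓝 ((0 : ℝ≥0∞) ^ (1 / 2 : ℝ) * μ K ^ (1 / 2 : ℝ))) :=
    ENNReal.Tendsto.mul_const ((ENNReal.continuous_rpow_const.tendsto 0).comp h)
      (Or.inr (ENNReal.rpow_ne_top_of_nonneg (by norm_num) hK))
  rw [ENNReal.zero_rpow_of_pos (by norm_num), zero_mul] at h1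
  refine tendsto_of_tendsto_of_tendsto_of_le_of_le tendsto_const_nhds h1 (fun _ => zero_le)
    fun k => ?_
  have := ENNReal.lintegral_mul_le_Lp_mul_Lq (μ.restrict K) Real.HolderConjugate.two_two (hF k)
    (aemeasurable_const (b := (1 : ℝ≥0∞)))
  simpa using this

end S

section E

variable {E : Type*} [MeasurableSpace E] [TopologicalSpace E] {μ : Measure E}
  {F F' : ℕ → E → ℝ≥0∞} {y : E}

/-- the upper integrals over a neighbourhood of `y` tend to zero -/
def NulE (μ : Measure E) (F : ℕ → E → ℝ≥0∞) (y : E) : Prop := ∃ V ∈ 𝓝 y, NulS μ V F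

theorem NulS.nulE {V : Set E} (h : NulS μ V F) (hV : V ∈ 𝓝 y) : NulE μ F y := ⟨V, hV, h⟩

theorem NulE.mono (h : NulE μ F y) (hF : ∀ᶠ z in 𝓝 y, ∀ k, F' k z ≤ F k z) : NulE μ F' y := by
  obtain ⟨V, hV, h⟩ := h
  exact ⟨_, inter_mem hV hF, h.mono inter_subset_left fun k z hz => hz.2 k⟩

theorem NulE.add (h : NulE μ F y) (h' : NulE μ F' y) : NulE μ (fun k z => F k z + F' k z) y := by
  obtain ⟨V, hV, h⟩ := h
  obtain ⟨V', hV', h'⟩ := h'
  exact ⟨_, inter_mem hV hV', (h.mono inter_subset_left fun _ _ _ => le_rfl).add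
    (h'.mono inter_subset_right fun _ _ _ => le_rfl)⟩

theorem NulE.mul (h : NulE μ F y) {c : ℝ≥0∞} (hc : c ≠ ⊤) :
    NulE μ (fun k z => c * F k z) y := by
  obtain ⟨V, hV, h⟩ := h
  exact ⟨V, hV, h.mul hc⟩

theorem nulE_zero : NulE μ (fun _ _ => 0) y :=
  ⟨univ, univ_mem, fun _ _ => 0, fun _ => measurable_const, fun _ _ _ => le_rfl, by simp⟩

theorem NulE.eventually (h : NulE μ F y) : ∀ᶠ z in 𝓝 y, NulE μ F z := by
  obtain ⟨V, hV, h⟩ := h
  exact (eventually_mem_nhds_iff.2 hV).mono fun z hz => ⟨V, hz, h⟩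

variable [OpensMeasurableSpace E]

theorem exists_nulS {K : Set E} (hK : IsCompact K) (h : ∀ z ∈ K, NulE μ F z) :
    ∃ V ∈ 𝓝ˢ K, NulS μ V F := by
  refine hK.induction_on (p := fun s => ∃ V ∈ 𝓝ˢ s, NulS μ V F) ⟨∅, by simp, ?_⟩ ?_ ?_ ?_
  · exact ⟨fun _ _ => 0, fun _ => measurable_const, fun _ _ h => h.elim, by simp⟩
  · rintro s t hst ⟨V, hV, h⟩
    exact ⟨V, nhdsSet_mono hst hV, h⟩
  · rintro s t ⟨V, hV, h⟩ ⟨W, hW, h'⟩
    refine ⟨interior V ∪ W, union_mem_nhdsSet ?_ hW,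
      (h.mono interior_subset fun _ _ _ => le_rfl).union h' isOpen_interior.measurableSet⟩
    exact isOpen_interior.mem_nhdsSet.2 (subset_interior_iff_mem_nhdsSet.2 hV)
  · intro x hx
    obtain ⟨V, hV, h⟩ := h x hx
    exact ⟨interior V, mem_nhdsWithin_of_mem_nhds (interior_mem_nhds.2 hV), V,
      mem_nhdsSet_interior, h⟩

theorem not_nulE [μ.IsOpenPosMeasure] {c : ℝ≥0∞} (hc : c ≠ 0)
    (hF : ∀ᶠ z in 𝓝 y, ∀ k, c ≤ F k z) : ¬ NulE μ F y := by
  rintro ⟨V, hV, h⟩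
  obtain ⟨W, hW, ho, hy⟩ := mem_nhds_iff.1 (inter_mem hV hF)
  obtain ⟨G, -, h2, h3⟩ := h.mono (K' := W) (F' := fun _ _ => c) (fun z hz => (hW hz).1)
    fun k z hz => (hW hz).2 k
  have h4 : ∀ k, c * μ W ≤ ∫⁻ z in W, G k z ∂μ := fun k => by
    rw [← setLIntegral_const]
    exact setLIntegral_mono' ho.measurableSet (h2 k)
  have h5 := ge_of_tendsto' h3 h4
  exact mul_ne_zero hc (ho.measure_ne_zero μ ⟨y, hy⟩) (le_zero_iff.1 h5)


end E

/-! ### averages over plaques -/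

section avg

variable {E₁ E₂ : Type*} [MeasurableSpace E₁] [TopologicalSpace E₁] [OpensMeasurableSpace E₁]
  [MeasurableSpace E₂] [TopologicalSpace E₂] [OpensMeasurableSpace E₂]
  [OpensMeasurableSpace (E₁ × E₂)] [T2Space E₂]
  {μ₁ : Measure E₁} {μ₂ : Measure E₂} [SFinite μ₂] [SFinite μ₁] [IsLocallyFiniteMeasure μ₂]
  {H : Type*} [NormedAddCommGroup H] [NormedSpace ℝ H]

theorem nulE_avg {Q : Set E₂} (hQ : IsCompact Q) (h0 : μ₂ Q ≠ 0) {g : ℕ → E₁ × E₂ → H} {t : E₁}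
    (h : ∀ w ∈ Q, NulE (μ₁.prod μ₂) (fun k y => ‖g k y‖ₑ) (t, w)) (w₀ : E₂) :
    NulE (μ₁.prod μ₂) (fun k y => ‖⨍ w in Q, g k (y.1, w) ∂μ₂‖ₑ) (t, w₀) := by
  obtain ⟨V, hV, hS⟩ := exists_nulS (isCompact_singleton.prod hQ)
    (F := fun k y => ‖g k y‖ₑ) (by rintro ⟨s, w⟩ ⟨rfl, hw⟩; exact h w hw)
  rw [isCompact_singleton.nhdsSet_prod_eq hQ, nhdsSet_singleton] at hV
  obtain ⟨W₀, hW₀, Q', hQ', hsub⟩ := mem_prod_iff.1 hV
  obtain ⟨W, hW, hWo, ht⟩ := mem_nhds_iff.1 hW₀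
  obtain ⟨O, hO, hOo, hOf⟩ := μ₂.exists_isOpen_measure_lt_top w₀
  obtain ⟨G, h1, h2, h3⟩ := hS.mono (K' := W ×ˢ Q)
    (fun y hy => hsub ⟨hW hy.1, subset_of_mem_nhdsSet hQ' hy.2⟩) fun _ _ _ => le_rfl
  have hm : ∀ k, Measurable fun s => ∫⁻ w in Q, G k (s, w) ∂μ₂ := fun k =>
    (h1 k).lintegral_prod_right'
  refine ⟨W ×ˢ O, prod_mem_nhds (hWo.mem_nhds ht) (hOo.mem_nhds hO),
    fun k y => (μ₂ Q)⁻¹ * ∫⁻ w in Q, G k (y.1, w) ∂μ₂,
    fun k => ((hm k).comp measurable_fst).const_mul _, fun k y hy => ?_, ?_⟩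
  · beta_reduce
    rw [setAverage_eq, enorm_smul]
    refine mul_le_mul' (le_of_eq ?_) ((enorm_integral_le_lintegral_enorm _).trans
      (setLIntegral_mono' hQ.measurableSet fun w hw => h2 k _ ⟨hy.1, hw⟩))
    rw [Real.enorm_of_nonneg (by positivity), measureReal_def, ENNReal.ofReal_inv_of_pos
      (ENNReal.toReal_pos h0 hQ.measure_lt_top.ne), ENNReal.ofReal_toReal hQ.measure_lt_top.ne]
  · have h4 := ENNReal.Tendsto.const_mul (a := (μ₂ Q)⁻¹ * μ₂ O) h3
      (Or.inr (ENNReal.mul_ne_top (ENNReal.inv_ne_top.2 h0) hOf.ne))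
    rw [mul_zero] at h4
    refine h4.congr fun k => ?_
    rw [← Measure.prod_restrict, ← Measure.prod_restrict, lintegral_prod _ (h1 k).aemeasurable,
      lintegral_prod (fun y : E₁ × E₂ => (μ₂ Q)⁻¹ * ∫⁻ w in Q, G k (y.1, w) ∂μ₂)
        (((hm k).comp measurable_fst).const_mul _).aemeasurable,
      ← lintegral_const_mul _ (hm k)]
    refine lintegral_congr fun s => ?_
    simp only [lintegral_const, Measure.restrict_apply_univ]
    ring

end avg

/-! ### change of variables -/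

section cov

variable {E E' : Type*} [NormedAddCommGroup E] [NormedSpace ℝ E] [FiniteDimensional ℝ E]
  [MeasurableSpace E] [BorelSpace E] [NormedAddCommGroup E'] [NormedSpace ℝ E']
  [FiniteDimensional ℝ E'] [MeasurableSpace E'] [BorelSpace E']
  {μ : Measure E} {μ' : Measure E'} [μ.IsAddHaarMeasure] [μ'.IsAddHaarMeasure]

theorem NulE.image (ψ : OpenPartialHomeomorph E E') {y : E} (hy : y ∈ ψ.source)
    (h1 : ContDiffAt ℝ 1 ψ y) (h2 : DifferentiableAt ℝ ψ.symm (ψ y)) {F : ℕ → E' → ℝ≥0∞}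
    (h : NulE μ (fun k z => F k (ψ z)) y) : NulE μ' F (ψ y) := by
  classical
  have hd := (h1.differentiableAt one_ne_zero).hasFDerivAt
  let L : E ≃L[ℝ] E' := ContinuousLinearEquiv.equivOfInverse (fderiv ℝ ψ y)
    (fderiv ℝ ψ.symm (ψ y)) (fun v => by
      have h3 := (h2.hasFDerivAt.comp y hd).unique
        ((hasFDerivAt_id y).congr_of_eventuallyEq (ψ.eventually_left_inverse hy))
      exact congrArg (fun T : E →L[ℝ] E => T v) h3) (fun v => by
      have hd' : HasFDerivAt ψ (fderiv ℝ ψ y) (ψ.symm (ψ y)) := by rwa [ψ.left_inv hy]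
      have h3 := (hd'.comp (ψ y) h2.hasFDerivAt).unique
        ((hasFDerivAt_id (ψ y)).congr_of_eventuallyEq
          (ψ.eventually_right_inverse (ψ.map_source hy)))
      exact congrArg (fun T : E' →L[ℝ] E' => T v) h3)
  obtain ⟨V, hV, hS⟩ := h
  have hc : ContinuousAt (fun z => |((L.symm : E' →L[ℝ] E) ∘L fderiv ℝ ψ z).det|) y :=
    (ContinuousLinearMap.continuous_det.continuousAt.comp
      (continuousAt_const.clm_comp (h1.continuousAt_fderiv one_ne_zero))).abs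
  set C := |((L.symm : E' →L[ℝ] E) ∘L fderiv ℝ ψ y).det| + 1
  obtain ⟨W, hW, hWo, hyW⟩ := mem_nhds_iff.1 (inter_mem (inter_mem hV (ψ.open_source.mem_nhds hy))
    ((h1.eventually (by simp)).and (hc.eventually (gt_mem_nhds (lt_add_one _)))))
  obtain ⟨G, g1, g2, g3⟩ := hS.mono (K' := W) (fun z hz => (hW hz).1.1) fun _ _ _ => le_rfl
  have hWs : W ⊆ ψ.source := fun z hz => (hW hz).1.2
  have ho : IsOpen (ψ '' W) := ψ.isOpen_image_of_subset_source hWo hWs
  let σ : E' → E := ψ.target.piecewise ψ.symm fun _ => 0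
  have hσ : Measurable σ :=
    ψ.continuousOn_symm.measurable_piecewise continuousOn_const ψ.open_target.measurableSet
  have hσψ : ∀ z ∈ W, σ (ψ z) = z := fun z hz => by
    simp only [σ, piecewise_eq_of_mem _ _ _ (ψ.map_source (hWs hz)), ψ.left_inv (hWs hz)]
  refine ⟨ψ '' W, ho.mem_nhds ⟨y, hyW, rfl⟩, fun k z => G k (σ z), fun k => (g1 k).comp hσ, ?_, ?_⟩
  · rintro k _ ⟨z, hz, rfl⟩
    beta_reduce
    rw [hσψ z hz]
    exact g2 k z hz
  · set c := Measure.addHaarScalarFactor μ' (μ.map L)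
    have hμ : μ' = c • μ.map L := Measure.isAddLeftInvariant_eq_smul _ _
    have h4 := ENNReal.Tendsto.const_mul (a := (c : ℝ≥0∞) * ENNReal.ofReal C) g3
      (Or.inr (ENNReal.mul_ne_top ENNReal.coe_ne_top ENNReal.ofReal_ne_top))
    rw [mul_zero] at h4
    refine tendsto_of_tendsto_of_tendsto_of_le_of_le tendsto_const_nhds h4 (fun _ => zero_le)
      fun k => ?_
    have e1 : L ⁻¹' (ψ '' W) = (fun z => L.symm (ψ z)) '' W := by
      rw [← image_image L.symm ψ, L.image_symm_eq_preimage]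
    have e2 : ∫⁻ z in ψ '' W, G k (σ z) ∂μ' =
        c * ∫⁻ z in (fun z => L.symm (ψ z)) '' W, G k (σ (L z)) ∂μ := by
      rw [hμ, Measure.restrict_smul, lintegral_smul_measure,
        setLIntegral_map (f := fun z => G k (σ z)) ho.measurableSet ((g1 k).comp hσ)
          L.continuous.measurable, e1]
      rfl
    rw [e2, lintegral_image_eq_lintegral_abs_det_fderiv_mul μ hWo.measurableSet
      (f := fun z => L.symm (ψ z)) (f' := fun z => (L.symm : E' →L[ℝ] E) ∘L fderiv ℝ ψ z)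
      (fun z hz => ((L.symm : E' →L[ℝ] E).hasFDerivAt.comp z
        ((hW hz).2.1.differentiableAt one_ne_zero).hasFDerivAt).hasFDerivWithinAt)
      (L.symm.injective.comp_injOn (ψ.injOn.mono hWs)), mul_assoc,
      ← lintegral_const_mul _ (g1 k)]
    refine mul_le_mul_right (setLIntegral_mono' hWo.measurableSet fun z hz => ?_) _
    rw [L.apply_symm_apply, hσψ z hz]
    exact mul_le_mul_left (ENNReal.ofReal_le_ofReal (hW hz).2.2.le) _

end cov

end

end Crest.Agent.X261.Rel.Nz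
end

-- ▼ part X261/Rel/Core
section

/-!
# X261, package REL (helper34), file `Core`: propagation along the fibres

Abstract setting: `a : M → E`, an ideal `Nl` of null sequences, open sets `O` with an averaging
property along the fibres (`Plq`).  If a family `f ω k` is approximated near each point, up to
functions of `a`, by `ev ω ∘ Ψ`, then it is approximated globally by `ev ω ∘ U`.
-/

set_option autoImplicit false
set_option linter.unusedSectionVars false

open Set Filter Topology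
open scoped ENNReal

namespace Crest.Agent.X261.Rel.Core

noncomputable section

variable {M : Type*} [TopologicalSpace M]

/-- an ideal of germs of null sequences -/
structure Idl (Nl : (ℕ → M → ℝ≥0∞) → M → Prop) : Prop where
  mono : ∀ {F F' x}, Nl F x → (∀ᶠ y in 𝓝 x, ∀ k, F' k y ≤ F k y) → Nl F' x
  add : ∀ {F F' x}, Nl F x → Nl F' x → Nl (fun k y => F k y + F' k y) x
  zero : ∀ x, Nl (fun _ _ => 0) x
  pos : ∀ {F x} {c : ℝ≥0∞}, c ≠ 0 → (∀ᶠ y in 𝓝 x, ∀ k, c ≤ F k y) → ¬ Nl F x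

variable {Nl : (ℕ → M → ℝ≥0∞) → M → Prop} {H : Type*} [NormedAddCommGroup H]

/-- vector valued null sequences -/
def Nv (Nl : (ℕ → M → ℝ≥0∞) → M → Prop) (g : ℕ → M → H) (x : M) : Prop :=
  Nl (fun k y => ‖g k y‖ₑ) x

namespace Idl

variable (hN : Idl Nl) {g g' : ℕ → M → H} {x : M}
include hN

theorem congr (h : Nv Nl g x) (e : ∀ᶠ y in 𝓝 x, ∀ k, g' k y = g k y) : Nv Nl g' x :=
  hN.mono h (e.mono fun _ hy k => by rw [hy k])

theorem of_le {H' : Type*} [NormedAddCommGroup H'] {g' : ℕ → M → H'} (h : Nv Nl g x)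
    (e : ∀ k y, ‖g' k y‖ ≤ ‖g k y‖) : Nv Nl g' x :=
  hN.mono h (Eventually.of_forall fun y k => enorm_le_iff_norm_le.2 (e k y))

theorem vadd (h : Nv Nl g x) (h' : Nv Nl g' x) : Nv Nl (fun k y => g k y + g' k y) x :=
  hN.mono (hN.add h h') (Eventually.of_forall fun _ _ => enorm_add_le _ _)

theorem vsub (h : Nv Nl g x) (h' : Nv Nl g' x) : Nv Nl (fun k y => g k y - g' k y) x :=
  hN.mono (hN.add h h') (Eventually.of_forall fun _ _ => enorm_sub_le)

theorem sum {ι : Type*} (s : Finset ι) {F : ι → ℕ → M → ℝ≥0∞} (h : ∀ j ∈ s, Nl (F j) x) :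
    Nl (fun k y => ∑ j ∈ s, F j k y) x := by
  classical
  induction s using Finset.induction_on with
  | empty => simpa using hN.zero x
  | insert j s hj ih =>
    simp only [Finset.sum_insert hj]
    exact hN.add (h j (Finset.mem_insert_self _ _))
      (ih fun i hi => h i (Finset.mem_insert_of_mem hi))

theorem eq_zero {u : M → H} (hu : ContinuousAt u x) (h : Nv Nl (fun _ y => u y) x) : u x = 0 := by
  by_contra h0
  have h1 : ‖u x‖ₑ / 2 < ‖u x‖ₑ := ENNReal.half_lt_self (by simpa using h0) enorm_ne_top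
  refine hN.pos (c := ‖u x‖ₑ / 2) (ENNReal.div_pos (by simpa using h0) (by norm_num)).ne' ?_ h
  filter_upwards [hu.enorm.eventually (lt_mem_nhds h1)] with z hz _ using hz.le

end Idl

variable {E : Type*} [TopologicalSpace E] {a : M → E} [NormedSpace ℝ H]
  {W : Type*} [NormedAddCommGroup W] [NormedSpace ℝ W]

variable (Nl a W H) in
/-- averaging along the plaques of `O` -/
def Plq (O : Set M) : Prop :=
  ∀ y ∈ O, ∀ V : Set M, IsOpen V → y ∈ V → ∀ u : M → W, ContinuousOn u V →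
    ∃ (c : E → W) (Y : Set E), IsOpen Y ∧ a y ∈ Y ∧ ContinuousOn c Y ∧
      ∀ (ev : W →L[ℝ] H) (d : ℕ → E → H), (∀ z ∈ V, Nv Nl (fun k x => d k (a x) - ev (u x)) z) →
        ∀ z ∈ O, a z ∈ Y → Nv Nl (fun k x => d k (a x) - ev (c (a x))) z

variable {Ω : Type*} {ev : Ω → W →L[ℝ] H} {f : Ω → ℕ → M → H}

variable (Nl a ev f) in
/-- `f ω k - h ω k ∘ a` tends to `ev ω ∘ U` near `x` -/
def Apx (h : Ω → ℕ → E → H) (U : M → W) (x : M) : Prop :=
  ∀ ω, Nv Nl (fun k y => f ω k y - h ω k (a y) - ev ω (U y)) x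

variable (Nl a ev f) in
/-- local data -/
structure Loc (O : Set M) (Ψ : M → W) : Prop where
  opn : IsOpen O
  plq : Plq Nl H a W O
  cont : ContinuousOn Ψ O
  apx : ∃ c, ∀ x ∈ O, Apx Nl a ev f c Ψ x

variable {h : Ω → ℕ → E → H} {U U' Ψ : M → W} {x : M} {O : Set M}

theorem Apx.congr (hN : Idl Nl) (h1 : Apx Nl a ev f h U x) (e : ∀ᶠ y in 𝓝 x, U' y = U y) :
    Apx Nl a ev f h U' x := fun ω => hN.congr (h1 ω) (e.mono fun _ hy _ => by rw [hy])

theorem Apx.uniq (hN : Idl Nl) (hev : ∀ w, (∀ ω, ev ω w = 0) → w = 0)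
    (h1 : Apx Nl a ev f h U x) (h2 : Apx Nl a ev f h U' x) (c1 : ContinuousAt U x)
    (c2 : ContinuousAt U' x) : U x = U' x := by
  refine sub_eq_zero.1 (hev _ fun ω => ?_)
  refine hN.eq_zero (u := fun y => ev ω (U y - U' y))
    ((ev ω).continuous.continuousAt.comp (c1.sub c2)) (hN.congr (hN.vsub (h2 ω) (h1 ω)) ?_)
  exact Eventually.of_forall fun y k => by rw [map_sub]; abel

theorem Loc.step (hN : Idl Nl) (hL : Loc Nl a ev f O Ψ) {y : M} (hy : y ∈ O) {V : Set M}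
    (hV : IsOpen V) (hyV : y ∈ V) (hU : ContinuousOn U V) (hA : ∀ z ∈ V, Apx Nl a ev f h U z) :
    ∃ (c : E → W) (Y : Set E), IsOpen Y ∧ a y ∈ Y ∧ ContinuousOn c Y ∧
      ∀ z ∈ O, a z ∈ Y → Apx Nl a ev f h (fun x => Ψ x + c (a x)) z := by
  obtain ⟨c₀, hc₀⟩ := hL.apx
  obtain ⟨c, Y, h1, h2, h3, h4⟩ := hL.plq y hy (V ∩ O) (hV.inter hL.opn) ⟨hyV, hy⟩
    (fun x => U x - Ψ x) ((hU.mono inter_subset_left).sub (hL.cont.mono inter_subset_right))
  refine ⟨c, Y, h1, h2, h3, fun z hz hzY ω => ?_⟩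
  have h5 := h4 (ev ω) (fun k t => c₀ ω k t - h ω k t) (fun z hz =>
    hN.congr (hN.vsub (hA z hz.1 ω) (hc₀ z hz.2 ω))
      (Eventually.of_forall fun y k => by rw [map_sub]; abel)) z hz hzY
  exact hN.congr (hN.vadd (hc₀ z hz ω) h5) (Eventually.of_forall fun y k => by rw [map_add]; abel)

/-- a continuous approximation is locally `Ψ + c ∘ a` -/
theorem Loc.form (hN : Idl Nl) (hev : ∀ w, (∀ ω, ev ω w = 0) → w = 0) (ha : Continuous a)
    (hL : Loc Nl a ev f O Ψ) {y : M} (hy : y ∈ O) {V : Set M}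
    (hV : IsOpen V) (hyV : y ∈ V) (hU : ContinuousOn U V) (hA : ∀ z ∈ V, Apx Nl a ev f h U z) :
    ∃ c : E → W, ∀ᶠ z in 𝓝 y, U z = Ψ z + c (a z) := by
  obtain ⟨c, Y, h1, h2, h3, h4⟩ := hL.step hN hy hV hyV hU hA
  refine ⟨c, ?_⟩
  filter_upwards [hV.mem_nhds hyV, hL.opn.mem_nhds hy, (h1.preimage ha).mem_nhds h2] with
    z z1 z2 z3
  exact (hA z z1).uniq hN hev (h4 z z2 z3) (hU.continuousAt (hV.mem_nhds z1))
    ((hL.cont.continuousAt (hL.opn.mem_nhds z2)).add
      ((h3.continuousAt (h1.mem_nhds z3)).comp ha.continuousAt))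

/-- **propagation** -/
theorem core (hN : Idl Nl) (hev : ∀ w, (∀ ω, ev ω w = 0) → w = 0) (ha : Continuous a)
    {T : Set M} (hloc : ∀ x ∈ T, ∃ O Ψ, x ∈ O ∧ Loc Nl a ev f O Ψ) {O₀ : Set M} {Ψ₀ : M → W}
    (h₀ : Loc Nl a ev f O₀ Ψ₀)
    (hc : ∀ x ∈ T, ∃ Y ⊆ T, IsPreconnected Y ∧ x ∈ Y ∧ (∀ y ∈ Y, a y = a x) ∧ ∃ y ∈ Y, y ∈ O₀) :
    ∃ (h : Ω → ℕ → E → H) (U : M → W), ∀ x ∈ T, ContinuousAt U x ∧ Apx Nl a ev f h U x := by
  classical
  obtain ⟨h, hh⟩ := h₀.apx
  let good : M → Prop := fun x => ∃ (V : Set M) (U : M → W), IsOpen V ∧ x ∈ V ∧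
    ContinuousOn U V ∧ ∀ z ∈ V, Apx Nl a ev f h U z
  have hgood : ∀ x ∈ T, good x := by
    intro x hx
    obtain ⟨Y, hY, hp, hxY, hYa, y, hy, hy₀⟩ := hc x hx
    refine hp.induction₂' (fun x y => good x → good y) (fun z hz => ?_)
      (fun _ _ _ _ _ _ h1 h2 h3 => h2 (h1 h3)) hy hxY ⟨O₀, Ψ₀, h₀.opn, hy₀, h₀.cont, hh⟩
    obtain ⟨O, Ψ, hzO, hL⟩ := hloc z (hY hz)
    have key : ∀ z ∈ O, ∀ z' ∈ O, a z' = a z → good z → good z' := by
      rintro z hz z' hz' e ⟨V, U, h1, h2, h3, h4⟩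
      obtain ⟨c, Y, g1, g2, g3, g4⟩ := hL.step hN hz h1 h2 h3 h4
      exact ⟨O ∩ a ⁻¹' Y, _, hL.opn.inter (g1.preimage ha), ⟨hz', by rwa [mem_preimage, e]⟩,
        (hL.cont.mono inter_subset_left).add (g3.comp ha.continuousOn fun _ hw => hw.2),
        fun w hw => g4 w hw.1 hw.2⟩
    filter_upwards [mem_nhdsWithin_of_mem_nhds (hL.opn.mem_nhds hzO), self_mem_nhdsWithin] with
      z' h1 h2
    have e : a z' = a z := (hYa z' h2).trans (hYa z hz).symm
    exact ⟨key z hzO z' h1 e, key z' h1 z hzO e.symm⟩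
  let U : M → W := fun x => if hx : good x then hx.choose_spec.choose x else 0
  have hU : ∀ (V : Set M) (U' : M → W), IsOpen V → ContinuousOn U' V →
      (∀ z ∈ V, Apx Nl a ev f h U' z) → ∀ z ∈ V, U z = U' z := by
    intro V U' h1 h2 h3 z hz
    have hg : good z := ⟨V, U', h1, hz, h2, h3⟩
    obtain ⟨g1, g2, g3, g4⟩ := hg.choose_spec.choose_spec
    simp only [U, dif_pos hg]
    exact (g4 z g2).uniq hN hev (h3 z hz) (g3.continuousAt (g1.mem_nhds g2))
      (h2.continuousAt (h1.mem_nhds hz))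
  refine ⟨h, U, fun x hx => ?_⟩
  obtain ⟨V, U', h1, h2, h3, h4⟩ := hgood x hx
  have e : ∀ᶠ y in 𝓝 x, U y = U' y := eventually_of_mem (h1.mem_nhds h2) (hU V U' h1 h3 h4)
  exact ⟨(h3.continuousAt (h1.mem_nhds h2)).congr (e.mono fun _ h => h.symm),
    (h4 x h2).congr hN e⟩

/-- a function which is locally a function of `a` is constant on connected parts of fibres -/
theorem const_of_loc {Z : Type*} {v : M → Z} {Y : Set M} (hp : IsPreconnected Y)
    (hv : ∀ x ∈ Y, ∀ᶠ y in 𝓝[Y] x, v y = v x) {x y : M} (hx : x ∈ Y) (hy : y ∈ Y) : v x = v y :=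
  hp.induction₂' (fun x y => v x = v y) (fun z hz => (hv z hz).mono fun _ h => ⟨h.symm, h⟩)
    (fun _ _ _ _ _ _ h1 h2 => h1.trans h2) hx hy

/-- a continuous limit of functions of `a` is constant on connected parts of fibres -/
theorem const_of_nv (hN : Idl Nl) (hev : ∀ w, (∀ ω, ev ω w = 0) → w = 0) (ha : Continuous a)
    {T : Set M} (hT : IsOpen T) (hp : ∀ x ∈ T, ∃ O, IsOpen O ∧ x ∈ O ∧ Plq Nl H a W O)
    {v : M → W} (hv : ContinuousOn v T) {d : Ω → ℕ → E → H}
    (hd : ∀ x ∈ T, ∀ ω, Nv Nl (fun k y => d ω k (a y) - ev ω (v y)) x) {Y : Set M} (hY : Y ⊆ T)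
    (hc : IsPreconnected Y) {t : E} (ht : ∀ y ∈ Y, a y = t) {x y : M} (hx : x ∈ Y) (hy : y ∈ Y) :
    v x = v y := by
  refine const_of_loc hc (fun z hz => ?_) hx hy
  obtain ⟨O, h1, h2, h3⟩ := hp z (hY hz)
  have hL : Loc Nl a ev (fun _ _ _ => (0 : H)) O fun _ => (0 : W) :=
    ⟨h1, h3, continuousOn_const, fun _ _ _ => 0, fun x _ ω => by simpa [Nv] using hN.zero x⟩
  obtain ⟨c, hc⟩ := hL.form hN hev ha h2 hT (hY hz) hv (h := fun ω k t => -d ω k t)
    fun x hx ω => by simpa using hd x hx ω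
  filter_upwards [mem_nhdsWithin_of_mem_nhds hc, self_mem_nhdsWithin] with w e hw
  rw [e, hc.self_of_nhds, ht w hw, ht z hz]

end

end Crest.Agent.X261.Rel.Core
end

-- ▼ part X261/Rel/Man
section

/-!
# X261, package REL (helper34), file `Man`: null sequences on a complex manifold

* `NM B F x` : `F k → 0` in `L¹` near `x`;  `idl`, `nm_of`, `NM.deck`;
* `plq_box`  : a product box has the averaging property.
-/

set_option autoImplicit false
set_option linter.unusedSectionVars false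

open Set Filter Topology Metric MeasureTheory
open scoped ENNReal

namespace Crest.Agent.X261.Rel

open Crest.Agent.R275.Geo Crest.Agent.R273.UCov_914
open Crest.Agent.X261.Rel.Nz Crest.Agent.X261.Rel.Core Crest.Agent.X261.Rel.Bx

noncomputable section

variable {n : ℕ} {M : Type} [TopologicalSpace M] {B : Atl n M} {F : ℕ → M → ℝ≥0∞} {x : M}

/-- `F k → 0` in `L¹` near `x` -/
def NM (B : Atl n M) (F : ℕ → M → ℝ≥0∞) (x : M) : Prop :=
  ∀ p, x ∈ (B.e p).source → NulE volume (fun k z => F k ((B.e p).symm z)) (B.e p x)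

theorem an_tr {p p' : B.ι} (h : x ∈ (B.e p).source) (h' : x ∈ (B.e p').source) :
    AnalyticAt ℂ (fun z => B.e p' ((B.e p).symm z)) (B.e p x) :=
  R266.SCV.analyticOnNhd_of_differentiableOn
    ((B.e p).isOpen_inter_preimage_symm (B.e p').open_source) (B.holo p p') _
    ⟨(B.e p).map_source h, by rw [mem_preimage, (B.e p).left_inv h]; exact h'⟩

theorem ev_symm {p : B.ι} (h : x ∈ (B.e p).source) {P : M → Prop} (hP : ∀ᶠ y in 𝓝 x, P y) :
    ∀ᶠ z in 𝓝 (B.e p x), P ((B.e p).symm z) :=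
  ((B.e p).tendsto_symm h).eventually hP

theorem nm_of {p : B.ι} (hx : x ∈ (B.e p).source)
    (h : NulE volume (fun k z => F k ((B.e p).symm z)) (B.e p x)) : NM B F x := by
  intro p' hx'
  have e : ((B.e p).symm.trans (B.e p')) (B.e p x) = B.e p' x :=
    congrArg (B.e p') ((B.e p).left_inv hx)
  rw [← e]
  refine NulE.image (μ := volume) ((B.e p).symm.trans (B.e p'))
    ⟨(B.e p).map_source hx, show (B.e p).symm (B.e p x) ∈ (B.e p').source by
      rwa [(B.e p).left_inv hx]⟩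
    ((an_tr hx hx').contDiffAt.restrict_scalars ℝ) ?_ (h.mono ?_)
  · rw [e]
    exact (an_tr hx' hx).differentiableAt.restrictScalars ℝ
  · filter_upwards [ev_symm hx ((B.e p').eventually_left_inverse hx')] with z hz k
    exact (congrArg (F k) hz).le

theorem idl (B : Atl n M) : Idl (NM B) where
  mono h e p hp := (h p hp).mono (ev_symm hp e)
  add h h' p hp := (h p hp).add (h' p hp)
  zero _ _ _ := nulE_zero
  pos {F x c} hc e h := by
    obtain ⟨p, hp⟩ := B.cover x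
    exact not_nulE hc (ev_symm hp e) (h p hp)

theorem NM.deck {X : Type} [TopologicalSpace X] {A : Atl n X} {G : Type} [Group G] {D : MonD A G}
    {F : ℕ → D.cov G → ℝ≥0∞} {g : G} {e : D.cov G} (h : NM (D.atl G) F (g • e)) :
    NM (D.atl G) (fun k y => F k (g • y)) e := by
  intro p hp
  have := h (p.1, p.2 * g⁻¹) ⟨hp.1, by rw [D.co_deck, hp.2]⟩
  refine this.mono (Eventually.of_forall fun z k => le_of_eq ?_)
  exact congrArg (F k) (D.deck_pt g _ _ _)

section box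

instance haarProd (q r : ℕ) :
    ((volume : Measure (Cn q)).prod (volume : Measure (Cn r))).IsAddHaarMeasure :=
  Measure.prod.instIsAddHaarMeasure _ _

variable {q : ℕ} {a : M → Cn q} {p : B.ι} {z₀ : Cn n}
  (b : Box (fun z => a ((B.e p).symm z)) z₀ (B.e p).target)

/-- the parametrisation of a box -/
def bs (u : Cn q × Cn b.r) : M := (B.e p).symm (b.s u)

/-- the open box in the manifold -/
def bO : Set M := (B.e p).source ∩ B.e p ⁻¹' b.W

theorem isOpen_bO : IsOpen (bO b) := (B.e p).isOpen_inter_preimage b.isOpen_W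

theorem a_bs {u : Cn q × Cn b.r} (hu : u ∈ b.s.source) : a (bs b u) = u.1 := b.fst u hu

theorem e_bs {u : Cn q × Cn b.r} (hu : u ∈ b.s.source) : B.e p (bs b u) = b.s u :=
  (B.e p).right_inv (b.tgt (b.s.map_source hu))

theorem bs_src {u : Cn q × Cn b.r} (hu : u ∈ b.s.source) : bs b u ∈ (B.e p).source :=
  (B.e p).map_target (b.tgt (b.s.map_source hu))

theorem bs_mem {u : Cn q × Cn b.r} (hu : u ∈ ball b.o b.ρ) : bs b u ∈ bO b :=
  ⟨bs_src b (b.sub' hu), by rw [mem_preimage, e_bs b (b.sub' hu)]; exact ⟨u, hu, rfl⟩⟩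

theorem exists_bs {y : M} (hy : y ∈ bO b) : ∃ u ∈ ball b.o b.ρ, bs b u = y := by
  obtain ⟨u, hu, e⟩ := hy.2
  exact ⟨u, hu, by rw [bs, e, (B.e p).left_inv hy.1]⟩

theorem continuousOn_bs : ContinuousOn (bs b) b.s.source :=
  (B.e p).continuousOn_symm.comp b.s.continuousOn fun _ hu => b.tgt (b.s.map_source hu)

theorem nm_iff_box {u : Cn q × Cn b.r} (hu : u ∈ b.s.source) : NM B F (bs b u) ↔
    NulE ((volume : Measure (Cn q)).prod volume) (fun k v => F k (bs b v)) u := by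
  have h1 := (b.an u hu).contDiffAt.restrict_scalars ℝ (n := 1)
  have h2 := (b.an_symm _ (b.s.map_source hu)).contDiffAt.restrict_scalars ℝ (n := 1)
  constructor
  · intro h
    have h3 := h p (bs_src b hu)
    rw [e_bs b hu] at h3
    have h4 := NulE.image (μ := volume) (μ' := (volume : Measure (Cn q)).prod volume) b.s.symm
      (b.s.map_source hu) h2 (F := fun k v => F k (bs b v))
      (by rw [b.s.left_inv hu]; exact h1.differentiableAt one_ne_zero) (h3.mono ?_)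
    · rwa [b.s.left_inv hu] at h4
    · filter_upwards [b.s.eventually_right_inverse' hu] with z hz k
      rw [bs, hz]
  · intro h
    refine nm_of (bs_src b hu) ?_
    rw [e_bs b hu]
    exact NulE.image b.s hu h1 (h2.differentiableAt one_ne_zero) h

theorem continuousOn_avg {E₁ E₂ W : Type*} [PseudoMetricSpace E₁] [ProperSpace E₁]
    [MetricSpace E₂] [ProperSpace E₂] [MeasurableSpace E₂] [BorelSpace E₂]
    {μ : Measure E₂} [IsLocallyFiniteMeasure μ] [NormedAddCommGroup W] [NormedSpace ℝ W]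
    {g : E₁ × E₂ → W} {u : E₁ × E₂} {δ : ℝ} (hg : ContinuousOn g (closedBall u δ)) :
    ContinuousOn (fun t => ⨍ w in closedBall u.2 δ, g (t, w) ∂μ) (ball u.1 δ) := by
  obtain ⟨C, hC⟩ := (isCompact_closedBall u δ).exists_bound_of_continuousOn hg
  have hm : ∀ t ∈ ball u.1 δ, ∀ w ∈ closedBall u.2 δ, (t, w) ∈ closedBall u δ := fun t ht w hw => by
    rw [← closedBall_prod_same]; exact ⟨ball_subset_closedBall ht, hw⟩
  simp only [setAverage_eq]
  refine ContinuousOn.const_smul ?_ _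
  have hK := (isCompact_closedBall u.2 δ).measurableSet
  refine continuousOn_of_dominated (bound := fun _ => C) (fun t ht => ?_) (fun t ht => ?_) ?_ ?_
  · exact (hg.comp (by fun_prop) fun w hw => hm t ht w hw).aestronglyMeasurable hK
  · exact ae_restrict_of_forall_mem hK fun w hw => hC _ (hm t ht w hw)
  · exact integrableOn_const (isCompact_closedBall _ _).measure_lt_top.ne
  · exact ae_restrict_of_forall_mem hK fun w hw => hg.comp (by fun_prop) fun t ht => hm t ht w hw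

theorem plq_box (H : Type*) [NormedAddCommGroup H] [NormedSpace ℝ H] [CompleteSpace H]
    (W : Type*) [NormedAddCommGroup W] [NormedSpace ℝ W] [CompleteSpace W] :
    Plq (NM B) H a W (bO b) := by
  intro y hy V hV hyV U hU
  obtain ⟨u, hu, rfl⟩ := exists_bs b hy
  obtain ⟨δ, hδ, hs⟩ := nhds_basis_closedBall.mem_iff.1 (inter_mem (isOpen_ball.mem_nhds hu)
    (((continuousOn_bs b).continuousAt (b.s.open_source.mem_nhds (b.sub' hu))).preimage_mem_nhds
      (hV.mem_nhds hyV)))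
  have hg : ContinuousOn (fun v => U (bs b v)) (closedBall u δ) :=
    hU.comp ((continuousOn_bs b).mono fun v hv => b.sub' (hs hv).1) fun v hv => (hs hv).2
  have hm : ∀ t ∈ ball u.1 δ, ∀ w ∈ closedBall u.2 δ, (t, w) ∈ closedBall u δ := fun t ht w hw => by
    rw [← closedBall_prod_same]; exact ⟨ball_subset_closedBall ht, hw⟩
  have hQ := isCompact_closedBall u.2 δ
  have hQ0 : (volume : Measure (Cn b.r)) (closedBall u.2 δ) ≠ 0 :=
    (measure_closedBall_pos _ _ hδ).ne'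
  refine ⟨fun t => ⨍ w in closedBall u.2 δ, U (bs b (t, w)), ball u.1 δ, isOpen_ball, ?_,
    continuousOn_avg hg, fun ev d hd z hz hzY => ?_⟩
  · rw [a_bs b (b.sub' hu)]; exact mem_ball_self hδ
  obtain ⟨v, hv, rfl⟩ := exists_bs b hz
  rw [a_bs b (b.sub' hv)] at hzY
  have h1 := nulE_avg (μ₁ := (volume : Measure (Cn q))) hQ hQ0 (t := v.1)
    (g := fun k v => d k v.1 - ev (U (bs b v))) (fun w hw => by
      have h2 := hs (hm _ hzY w hw)
      refine ((nm_iff_box b (b.sub' h2.1)).1 (hd _ h2.2)).mono ?_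
      filter_upwards [b.s.open_source.mem_nhds (b.sub' h2.1)] with v' hv' k
      rw [a_bs b hv']) v.2
  refine (nm_iff_box b (b.sub' hv)).2 (h1.mono ?_)
  filter_upwards [b.s.open_source.mem_nhds (b.sub' hv),
    (isOpen_ball.preimage continuous_fst).mem_nhds hzY] with v' h2 h3 k
  have hi : IntegrableOn (fun w => U (bs b (v'.1, w))) (closedBall u.2 δ) :=
    (hg.comp (by fun_prop) fun w hw => hm _ h3 w hw).integrableOn_compact hQ
  refine le_of_eq (congrArg _ ?_)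
  rw [a_bs b h2]
  conv_lhs => rw [← setAverage_const hQ0 hQ.measure_lt_top.ne (d k v'.1)]
  simp only [setAverage_eq]
  have hc : IntegrableOn (fun _ => d k v'.1) (closedBall u.2 δ) :=
    integrableOn_const hQ.measure_lt_top.ne
  rw [integral_sub hc (ev.integrable_comp hi),
    ev.integral_comp_comm hi, smul_sub, map_smul]

end box

end

end Crest.Agent.X261.Rel
end

-- ▼ part X261/Rel/Mp
section

/-!
# X261, package REL (helper36), file `Mp`: the maximum principle along the fibres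

* `flat`          : a holomorphic function whose real part has a maximum along a regular fibre;
* `exists_max`    : an invariant function attains its maximum on a fibre;
* `inner_eq_zero` : an invariant fibre primitive of `⟪ξ, S⟫` forces `⟪ξ, S⟫ = 0`;
* `char_eq_zero`  : additive functions on a group which is not virtually indicable.
-/

set_option autoImplicit false
set_option linter.unusedSectionVars false

open Set Filter Topology Metric Matrix
open scoped InnerProductSpace Pointwise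

noncomputable section

namespace Crest.Agent.X261.Rel.Mp

open Crest.Agent.R275.Geo
open Crest.Agent.R275.OmT75 (dj dl)
open Crest.Agent.R273.UCov_914
open Crest.Agent.R273.Fock_243 (FI eW iW ep)
open Crest.Agent.R281.Kd_22 (Hm)
open Crest.Agent.X261.Top (dW)
open Crest.Agent.X261.Gauss (Frm)
open Crest.Agent.X261.Rel.Bx

variable {n q : ℕ}

theorem flat {a : Cn n → Cn q} {g : Cn n → ℂ} {z₀ : Cn n} (ha : AnalyticAt ℂ a z₀)
    (h0 : ta a z₀ ≠ 0) (hg : AnalyticAt ℂ g z₀)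
    (hm : ∀ᶠ z in 𝓝 z₀, a z = a z₀ → (g z).re ≤ (g z₀).re) :
    (∀ᶠ z in 𝓝 z₀, a z = a z₀ → (g z).re = (g z₀).re) ∧
      eW (fun b => dj b g z₀) *ᵥ ta a z₀ = 0 := by
  obtain ⟨U, hU, hUo, hz⟩ := _root_.eventually_nhds_iff.1 ha.eventually_analyticAt
  obtain ⟨B⟩ := exists_box hUo hz (fun z hz => (hU z hz).differentiableAt.differentiableWithinAt) h0
  have ho : B.o ∈ B.s.source := B.sub (mem_closedBall_self B.pos.le)
  have hso : B.s B.o = z₀ := B.ctr
  have hι : ContinuousAt (fun w : Cn B.r => (a z₀, w)) 0 := by fun_prop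
  have hs : AnalyticAt ℂ (fun w : Cn B.r => B.s (a z₀, w)) 0 :=
    (B.an _ ho).comp_of_eq (analyticAt_const.prod analyticAt_id) rfl
  have hh : AnalyticAt ℂ (fun w : Cn B.r => g (B.s (a z₀, w))) 0 := hg.comp_of_eq hs B.ctr
  have ht : Tendsto (fun w : Cn B.r => B.s (a z₀, w)) (𝓝 0) (𝓝 z₀) := by
    simpa only [ContinuousAt, B.ctr] using hs.continuousAt
  have h1 : ∀ᶠ w in 𝓝 (0 : Cn B.r), Complex.exp (g (B.s (a z₀, w))) =
      Complex.exp (g (B.s (a z₀, 0))) := by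
    refine Complex.eventually_eq_of_isLocalMax_norm
      (hh.cexp.eventually_analyticAt.mono fun w hw => hw.differentiableAt) ?_
    filter_upwards [ht.eventually hm, hι.eventually (B.s.open_source.mem_nhds ho)] with w h1 h2
    simp only [Function.comp, Complex.norm_exp, B.ctr]
    exact Real.exp_le_exp.2 (h1 (B.fst _ h2))
  have hzt : z₀ ∈ B.s.target := B.W_sub B.mem_W
  constructor
  · have h2 : Tendsto (fun z => (B.s.symm z).2) (𝓝 z₀) (𝓝 0) := by
      have h3 : B.s.symm z₀ = B.o := (congrArg B.s.symm hso).symm.trans (B.s.left_inv ho)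
      have h4 := (B.s.continuousAt_symm hzt).snd
      rw [ContinuousAt, h3] at h4
      exact h4
    filter_upwards [h2.eventually h1, B.s.open_target.mem_nhds hzt] with z h3 h4 h5
    have h7 : (a z₀, (B.s.symm z).2) = B.s.symm z := Prod.ext (h5.symm.trans (B.a_eq h4)) rfl
    rw [h7, B.s.right_inv h4, B.ctr] at h3
    have h6 := congrArg norm h3
    rw [Complex.norm_exp, Complex.norm_exp] at h6
    exact Real.exp_injective h6
  · have h2 : fderiv ℂ (fun w : Cn B.r => g (B.s (a z₀, w))) 0 = 0 := by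
      have h3 := hh.differentiableAt.hasFDerivAt.cexp
      have h4 := h3.unique ((hasFDerivAt_const _ _).congr_of_eventuallyEq h1)
      exact (smul_eq_zero.1 h4).resolve_left (Complex.exp_ne_zero _)
    refine Plk.eW_wdg_of_mem (Plk.mem_span_of_ker fun x hx => ?_)
    obtain ⟨w, rfl⟩ := B.exists_V ho (x := x) (by rw [hso]; exact hx)
    have hg' : DifferentiableAt ℂ g (B.s B.o) := by rw [hso]; exact hg.differentiableAt
    have h5 := B.vert_dj ho hg' w
    have h6 := ((hg'.comp B.o (B.an _ ho).differentiableAt).hasFDerivAt.comp (0 : Cn B.r)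
      (hasFDerivAt_prodMk_right (a z₀) (0 : Cn B.r))).fderiv
    have h7 : fderiv ℂ (fun v => g (B.s v)) B.o (0, w) = 0 :=
      (congrArg (fun L => L w) (h6.symm.trans h2) :)
    rw [h7, hso] at h5
    rw [← h5]
    exact Finset.sum_congr rfl fun b _ => mul_comm _ _

variable {X : Type} [TopologicalSpace X] {A : Atl n X} {G : Type} [Group G] {D : MonD A G}
  {M : Subgroup G}

theorem cont_al (Z : Stp D q M) : Continuous Z.al := by
  refine continuous_iff_continuousAt.2 fun e => ?_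
  obtain ⟨p, hp⟩ := (D.atl G).cover e
  have h1 := ((Z.hol p).continuousOn.continuousAt (((D.atl G).e p).open_target.mem_nhds
    (((D.atl G).e p).map_source hp))).comp (((D.atl G).e p).continuousAt hp)
  refine h1.congr ?_
  filter_upwards [((D.atl G).e p).eventually_left_inverse hp] with y hy
  simp only [Function.comp, hy]

theorem al_M (Z : Stp D q M) {g : G} (hg : g ∈ M) (e : D.cov G) : Z.al (g • e) = Z.al e := by
  rw [Z.eqv, Z.L_M g hg, Z.lam_M g hg, add_zero]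
  rfl

theorem an_aV (Z : Stp D q M) (i : A.ι) (v : G) {x : X} (hx : x ∈ (A.e i).source) :
    AnalyticAt ℂ (fun z => aV D Z.al i v ((A.e i).symm z)) (A.e i x) :=
  R266.SCV.analyticOnNhd_of_differentiableOn (A.e i).open_target (Z.hol (i, v)) _
    ((A.e i).map_source hx)

theorem exists_max (Z : Stp D q M) (F : Z.Fb) {e : D.cov G} (he : Z.al e ∈ F.B)
    {u : D.cov G → ℝ} (hu : ContinuousOn u (Z.al ⁻¹' {Z.al e})) {K' : Subgroup G}
    (hK : Grp.FI K' M) (inv : ∀ g ∈ K', ∀ y, Z.al y = Z.al e → u (g • y) = u y) :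
    ∃ y₀, Z.al y₀ = Z.al e ∧ ∀ y, Z.al y = Z.al e → u y ≤ u y₀ := by
  obtain ⟨C, hC, h1⟩ := F.cpt _ he
  obtain ⟨T, -, h2⟩ := hK.exists_cover
  have h3 : IsCompact ((⋃ τ ∈ T, τ⁻¹ • C) ∩ Z.al ⁻¹' {Z.al e}) :=
    (T.isCompact_biUnion fun τ _ => hC.smul τ⁻¹).inter_right
      (isClosed_singleton.preimage (cont_al Z))
  have h4 : ∀ y, Z.al y = Z.al e →
      ∃ k ∈ K', k • y ∈ (⋃ τ ∈ T, τ⁻¹ • C) ∩ Z.al ⁻¹' {Z.al e} := by
    intro y hy
    obtain ⟨m, hm, h5⟩ := h1 y hy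
    obtain ⟨τ, hτ, h6⟩ := h2 m hm
    refine ⟨_, h6, mem_biUnion hτ ⟨_, h5, (mul_smul _ _ _).symm⟩, ?_⟩
    exact (al_M Z (hK.le h6) y).trans hy
  obtain ⟨k, -, h5⟩ := h4 e rfl
  obtain ⟨y₀, h6, h7⟩ := h3.exists_isMaxOn ⟨_, h5⟩ (hu.mono inter_subset_right)
  refine ⟨y₀, h6.2, fun y hy => ?_⟩
  obtain ⟨k, hk, h8⟩ := h4 y hy
  rw [← inv k hk y hy]
  exact h7 h8

/-- the maximum principle at a point of the cover -/
theorem at_max (Z : Stp D q M) (F : Z.Fb) {y : D.cov G} (hy : Z.al y ∈ F.B) {u : D.cov G → ℝ}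
    (hm : ∀ y', Z.al y' = Z.al y → u y' ≤ u y) {i : A.ι} (hi : D.pr y ∈ (A.e i).source)
    {f : X → ℂ} {c : Cn q → ℝ} (hf : Hm A f (D.pr y))
    (hu : ∀ᶠ x in 𝓝 (D.pr y), u (D.pt i (D.co i y) x) = (f x).re + c (aV D Z.al i (D.co i y) x)) :
    (∀ᶠ y' in 𝓝 y, Z.al y' = Z.al y → u y' = u y) ∧
      eW (fun b => dl A i b f (D.pr y)) *ᵥ dW A i (aV D Z.al i (D.co i y)) (D.pr y) = 0 := by
  have h0 : aV D Z.al i (D.co i y) (D.pr y) = Z.al y := by rw [aV, D.pt_co hi]
  have h1 := hu.self_of_nhds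
  rw [D.pt_co hi, h0] at h1
  have hs : Tendsto (A.e i).symm (𝓝 (A.e i (D.pr y))) (𝓝 (D.pr y)) := by
    simpa only [ContinuousAt, (A.e i).left_inv hi] using
      (A.e i).continuousAt_symm ((A.e i).map_source hi)
  obtain ⟨h2, h3⟩ := flat (an_aV Z i (D.co i y) hi)
    (F.reg i _ _ hi (by rw [D.pt_co hi]; exact hy)) (hf i hi) (by
      filter_upwards [hs.eventually hu] with z h2 h3
      rw [(A.e i).left_inv hi, h0] at h3
      rw [(A.e i).left_inv hi]
      have h4 := hm _ h3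
      rw [h2, h1, h3] at h4
      linarith)
  refine ⟨?_, h3⟩
  have ht : Tendsto (fun y' => A.e i (D.pr y')) (𝓝 y) (𝓝 (A.e i (D.pr y))) :=
    ((A.e i).continuousAt hi).comp D.continuous_pr.continuousAt
  filter_upwards [ht.eventually h2, D.co_eventually hi,
    D.continuous_pr.continuousAt.eventually hu] with y' h4 h5 h6 h7
  rw [(A.e i).left_inv hi, (A.e i).left_inv h5.1, h0, aV, ← h5.2, D.pt_co h5.1] at h4
  rw [aV, ← h5.2, D.pt_co h5.1, h7] at h6
  rw [h6, h1, h4 h7]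

variable {W : Type} [NormedAddCommGroup W] [InnerProductSpace ℂ W]

theorem inner_eq_zero [ConnectedSpace (D.cov G)] (Z : Stp D q M) (F : Z.Fb) (Φ : Frm D q W)
    (ha : Φ.a = aV D Z.al) {T : Set (D.cov G)} (hT : IsOpen T) (hne : T.Nonempty)
    (hB : ∀ e ∈ T, Z.al e ∈ F.B) (sat : ∀ e ∈ T, ∀ e', Z.al e' = Z.al e → e' ∈ T) (ξ : W)
    {u : D.cov G → ℝ} (hu : ContinuousOn u T) {K' : Subgroup G} (hK : Grp.FI K' M)
    (inv : ∀ g ∈ K', ∀ e ∈ T, u (g • e) = u e)
    (loc : ∀ e ∈ T, ∀ i, D.pr e ∈ (A.e i).source → ∃ (f : X → ℂ) (c : Cn q → ℝ) (κ : ℂ),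
      Hm A f (D.pr e) ∧ ∀ᶠ x in 𝓝 (D.pr e),
        u (D.pt i (D.co i e) x) = (f x).re + c (Φ.a i (D.co i e) x) ∧
        (fun I => ⟪ξ, Φ.S i (D.co i e) x I⟫_ℂ) =
          κ • (eW (fun b => dl A i b f x) *ᵥ dW A i (Φ.a i (D.co i e)) x)) :
    ∀ i v, ∀ x ∈ (A.e i).source, ∀ I, ⟪ξ, Φ.S i v x I⟫_ℂ = 0 := by
  rw [ha] at loc
  have key : ∀ e ∈ T, ∀ i, D.pr e ∈ (A.e i).source →
      (fun I => ⟪ξ, Φ.S i (D.co i e) (D.pr e) I⟫_ℂ) = 0 := by
    intro e he i hi
    have hY : Z.al ⁻¹' {Z.al e} ⊆ T := fun y hy => sat e he y hy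
    obtain ⟨y₀, h1, h2⟩ := exists_max Z F (hB e he) (hu.mono hY) hK
      fun g hg y hy => inv g hg y (hY hy)
    have h3 : (u y₀ = u y₀) = (u e = u y₀) := by
      refine Core.const_of_loc (v := fun y => u y = u y₀) (F.conn _ (hB e he)) (fun y hy => ?_)
        h1 rfl
      by_cases h4 : u y = u y₀
      · obtain ⟨j, hj⟩ := A.cover (D.pr y)
        obtain ⟨f, c, κ, h5, h6⟩ := loc y (hY hy) j hj
        have h7 := (at_max Z F (hB y (hY hy)) (fun y' h => h4 ▸ h2 y' (h.trans hy)) hj h5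
          (h6.mono fun x hx => hx.1)).1
        filter_upwards [nhdsWithin_le_nhds h7, self_mem_nhdsWithin] with y' h8 h9
        rw [h8 (h9.trans (Eq.symm hy))]
      · have h5 := (hu.continuousAt (hT.mem_nhds (hY hy))).eventually_ne h4
        filter_upwards [nhdsWithin_le_nhds h5] with y' h8
        exact propext (iff_of_false h8 h4)
    have h4 : u e = u y₀ := h3 ▸ rfl
    obtain ⟨f, c, κ, h5, h6⟩ := loc e he i hi
    rw [h6.self_of_nhds.2, (at_max Z F (hB e he) (fun y' h => h4 ▸ h2 y' h) hi h5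
      (h6.mono fun x hx => hx.1)).2, smul_zero]
  intro i v x hx I
  refine congrFun (Plk.ident_fam (D := D) (f := fun i v x I => ⟪ξ, Φ.S i v x I⟫_ℂ)
    (fun i v z hz => AnalyticAt.pi fun I => ?_) (fun i j v x hx h0 => ?_) ?_ i v x hx) I
  · exact R266.SCV.analyticOnNhd_of_differentiableOn (A.e i).open_target
      ((innerSL ℂ ξ).differentiable.comp_differentiableOn (Φ.S_hol i v I)) z hz
  · funext I
    rw [Φ.S_tr i j v x hx, Gauss.mv, inner_sum]
    refine Finset.sum_eq_zero fun J _ => ?_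
    rw [inner_smul_right, congrFun h0 J, Pi.zero_apply, mul_zero]
  · obtain ⟨e, he⟩ := hne
    obtain ⟨j, hj⟩ := A.cover (D.pr e)
    refine ⟨j, D.co j e, D.pr e, hj, ?_⟩
    have h1 : ContinuousAt (D.pt j (D.co j e)) (D.pr e) :=
      (D.continuousOn_pt j _).continuousAt ((A.e j).open_source.mem_nhds hj)
    filter_upwards [h1.eventually (hT.mem_nhds (by rw [D.pt_co hj]; exact he)),
      (A.e j).open_source.mem_nhds hj] with y h2 h3
    have h4 := key _ h2 j h3
    rwa [D.co_pt _ h3] at h4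

theorem char_eq_zero {G : Type*} [Group G] {M N K' : Subgroup G} [N.Normal]
    (hV : ¬ Grp.VInd (M.map (QuotientGroup.mk' N))) (hK : Grp.FI K' M) (φ : G → ℝ)
    (add : ∀ g ∈ K', ∀ h ∈ K', φ (g * h) = φ g + φ h) (hN : ∀ g ∈ K', g ∈ N → φ g = 0) :
    ∀ g ∈ K', φ g = 0 := by
  classical
  have h1 : ∀ g ∈ K', ∀ h ∈ K', (g : G ⧸ N) = h → φ g = φ h := fun g hg h hh e => by
    have h2 := K'.mul_mem (K'.inv_mem hg) hh
    have h3 := add g hg _ h2
    rw [mul_inv_cancel_left, hN _ h2 (QuotientGroup.eq.1 e), add_zero] at h3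
    exact h3.symm
  let b : G ⧸ N → ℝ := fun x => if h : ∃ g ∈ K', (g : G ⧸ N) = x then φ h.choose else 0
  have hb : ∀ g ∈ K', b g = φ g := fun g hg => by
    have h : ∃ g' ∈ K', (g' : G ⧸ N) = g := ⟨g, hg, rfl⟩
    simp only [b, dif_pos h]
    exact h1 _ h.choose_spec.1 _ hg h.choose_spec.2
  intro g hg
  by_contra h0
  refine hV ⟨_, hK.map _, b, ?_, g, ⟨g, hg, rfl⟩, by rwa [hb g hg]⟩
  rintro _ ⟨x, hx, rfl⟩ _ ⟨y, hy, rfl⟩
  have h2 := hb _ (K'.mul_mem hx hy)
  rw [add x hx y hy, ← hb x hx, ← hb y hy] at h2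
  exact h2

theorem inv_of (Z : Stp D q M) {N K' : Subgroup G} [N.Normal]
    (hV : ¬ Grp.VInd (M.map (QuotientGroup.mk' N))) (hK : Grp.FI K' M) {T : Set (D.cov G)}
    (sat : ∀ e ∈ T, ∀ e', Z.al e' = Z.al e → e' ∈ T) {u : D.cov G → ℝ}
    (h1 : ∀ g ∈ K', ∀ e ∈ T, ∀ e' ∈ T, Z.al e = Z.al e' → u (g • e) - u e = u (g • e') - u e')
    (h2 : ∀ g ∈ K', g ∈ N → ∀ e ∈ T, u (g • e) = u e) : ∀ g ∈ K', ∀ e ∈ T, u (g • e) = u e := by
  intro g hg e he
  refine sub_eq_zero.1 (char_eq_zero hV hK (fun g => u (g • e) - u e) (fun g hg h hh => ?_)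
    (fun g hg hN => sub_eq_zero.2 (h2 g hg hN e he)) g hg)
  have h3 := al_M Z (hK.le hh) e
  rw [h1 g hg e he _ (sat e he _ h3) h3.symm, mul_smul]
  ring

end Crest.Agent.X261.Rel.Mp
end
end

-- ▼ part X261/Rel85/AvgA
section

/-!
# Row 261, REL (helper85), AVG part A: invariant means, translates of the form `S`
-/

set_option autoImplicit false
set_option linter.unusedSectionVars false

open Set Filter Topology Complex Matrix MeasureTheory
open scoped ENNReal InnerProductSpace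

namespace Crest.Agent.X261.Rel85

open Crest.Agent.R275.Geo Crest.Agent.R275.Core144
open Crest.Agent.R275.OmT75 (dl dj dj_congr)
open Crest.Agent.R273.UCov_914
open Crest.Agent.R273.Fock_243 (FI Gam eW iW ep)
open Crest.Agent.X261.Top (dW)
open Crest.Agent.X261.Gauss (mv dV Frm)
open Crest.Agent.X261.Rel Crest.Agent.X261.Rel.Act Crest.Agent.X261.Rel.Ms
open Crest.Agent.R189.MeanF

noncomputable section

/-! ### means -/

theorem exists_mean {Q : Type*} [Group Q] (h : R189.Amen Q) :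
    ∃ μ : Mn Q, ∀ (g : Q) (f : Q → ℝ), Bdd f → μ.m (fun x => f (g * x)) = μ.m f := by
  classical
  choose p hp h using fun i : Finset Q × ℕ => h i.1 (1 / ((i.2 : ℝ) + 1)) Nat.one_div_pos_of_nat
  obtain ⟨m, h1, h2, -⟩ := invMean_of_approx (G := Q) (Ω := Q) (atTop : Filter (Finset Q × ℕ))
    (fun i f => Finsupp.linearCombination ℝ f (p i)) (fun i => ⟨fun f g _ _ => by
      simp [Finsupp.linearCombination_apply, Finsupp.sum, mul_add, Finset.sum_add_distrib],
      fun c f _ => by simp [Finsupp.linearCombination_apply, Finsupp.sum, Finset.mul_sum,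
        mul_left_comm],
      fun f _ hf => Finset.sum_nonneg fun x _ => mul_nonneg ((hp i).nonneg x) (hf x),
      (R189.mass_lc _).symm.trans (hp i).mass⟩) fun g f ⟨C, hC⟩ => by
      have h0 : 0 ≤ C := (abs_nonneg _).trans (hC 1)
      have h5 : Tendsto (Prod.snd : Finset Q × ℕ → ℕ) atTop atTop := by
        rw [← prod_atTop_atTop_eq]; exact tendsto_snd
      have h3 := ((tendsto_one_div_add_atTop_nhds_zero_nat (𝕜 := ℝ)).comp h5).const_mul C
      rw [mul_zero] at h3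
      refine squeeze_zero_norm' ((eventually_ge_atTop (({g} : Finset Q), 0)).mono fun i hi => ?_) h3
      have h4 : Finsupp.linearCombination ℝ (fun x => f (g • x)) (p i) =
          Finsupp.linearCombination ℝ f ((p i).mapDomain fun x => g * x) :=
        (Finsupp.linearCombination_mapDomain ℝ (fun x => g * x) (p i)).symm
      rw [h4, ← map_sub]
      refine le_trans ?_ (mul_le_mul_of_nonneg_left (h i g (hi.1 (by simp))).le h0)
      rw [Finsupp.linearCombination_apply, R189.l1, Finsupp.sum, Finsupp.sum, Finset.mul_sum]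
      refine (norm_sum_le _ _).trans (Finset.sum_le_sum fun x _ => ?_)
      rw [norm_smul, mul_comm]
      exact mul_le_mul_of_nonneg_right (hC x) (abs_nonneg _)
  exact ⟨⟨m, h1⟩, h2⟩

variable {Ω H : Type*} [NormedAddCommGroup H] [InnerProductSpace ℂ H]

theorem bdd_li (u : Li Ω ℝ) : Bdd fun ω => u ω := ⟨‖u‖, norm_apply_le u⟩

/-- the mean as a continuous functional -/
def mL (μ : Mn Ω) : Li Ω ℝ →L[ℝ] ℝ :=
  LinearMap.mkContinuous
    { toFun := fun u => μ.m fun ω => u ω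
      map_add' := fun u v => μ.is.add _ _ (bdd_li u) (bdd_li v)
      map_smul' := fun c u => μ.is.smul c _ (bdd_li u) } 1
    fun u => (μ.is.abs_le (norm_apply_le u)).trans_eq (one_mul _).symm

/-- the squared norm -/
def sqL (u : Li Ω H) : Li Ω ℝ := mk (fun ω => ‖u ω‖ ^ 2) (bdd_sq u)

theorem continuous_sqL : Continuous (sqL : Li Ω H → Li Ω ℝ) := by
  refine continuous_iff_continuousAt.2 fun u => tendsto_iff_norm_sub_tendsto_zero.2 ?_
  have h : Tendsto (fun v : Li Ω H => ‖v - u‖ * (‖v‖ + ‖u‖)) (𝓝 u) (𝓝 0) := by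
    have h : Continuous fun v : Li Ω H => ‖v - u‖ * (‖v‖ + ‖u‖) := by fun_prop
    simpa using h.tendsto u
  refine squeeze_zero (fun _ => norm_nonneg _) (fun v => norm_le _ (by positivity) fun ω => ?_) h
  change |‖v ω‖ ^ 2 - ‖u ω‖ ^ 2| ≤ _
  rw [sq_sub_sq, abs_mul, mul_comm, abs_of_nonneg (a := _ + _) (by positivity)]
  exact mul_le_mul ((abs_norm_sub_norm_le _ _).trans (norm_apply_le (v - u) ω))
    (add_le_add (norm_apply_le v ω) (norm_apply_le u ω)) (by positivity) (norm_nonneg _)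

theorem lint_sq {n : ℕ} {K : Set (Cn n)} (hK : IsCompact K) {W : Type*} [NormedAddCommGroup W]
    {F : Cn n → W} (hF : ContinuousOn F K) :
    ∫⁻ z in K, ‖F z‖ₑ ^ 2 = ENNReal.ofReal (∫ z in K, ‖F z‖ ^ 2) := by
  rw [ofReal_integral_eq_lintegral_ofReal (f := fun z => ‖F z‖ ^ 2)
    ((hF.norm.pow 2).integrableOn_compact hK)
    (Eventually.of_forall fun _ => sq_nonneg _)]
  simp only [ENNReal.ofReal_pow (norm_nonneg _), ofReal_norm]

theorem int_mean (μ : Mn Ω) {n : ℕ} {K : Set (Cn n)} (hK : IsCompact K) {u : Cn n → Li Ω H}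
    (hu : ContinuousOn u K) : (Bdd fun ω => ∫ z in K, ‖u z ω‖ ^ 2) ∧
      ∫ z in K, ‖i μ (u z)‖ ^ 2 = μ.m fun ω => ∫ z in K, ‖u z ω‖ ^ 2 := by
  have h1 : IntegrableOn (fun z => sqL (u z)) K :=
    (continuous_sqL.comp_continuousOn hu).integrableOn_compact hK
  have h2 : (fun ω => ∫ z in K, ‖u z ω‖ ^ 2) = fun ω => (∫ z in K, sqL (u z)) ω :=
    funext fun ω => (lp.evalCLM ℝ (fun _ : Ω => ℝ) ⊤ ω).integral_comp_comm h1
  rw [h2]
  refine ⟨bdd_li _, ?_⟩
  simp only [norm_i_sq]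
  exact (mL μ).integral_comp_comm h1

/-! ### the operator `∂` and linear maps -/

variable {n : ℕ} {X : Type} [TopologicalSpace X] {A : Atl n X} {G : Type} [Group G] {q : ℕ}

theorem dj_clm {W W' : Type*} [NormedAddCommGroup W] [NormedSpace ℂ W] [NormedAddCommGroup W']
    [NormedSpace ℂ W'] (l : W →L[ℂ] W') (c : W') {F : Cn n → W} {z : Cn n}
    (hF : DifferentiableAt ℝ F z) (b : Fin n) :
    dj b (fun w => l (F w) + c) z = l (dj b F z) := by
  have h := (((l.restrictScalars ℝ).hasFDerivAt.comp z hF.hasFDerivAt).add_const c).fderiv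
  unfold dj
  rw [show (fun w => l (F w) + c) = fun w => ((l.restrictScalars ℝ) ∘ F) w + c from rfl, h]
  simp

theorem dj_clm' {W W' : Type*} [NormedAddCommGroup W] [NormedSpace ℂ W] [NormedAddCommGroup W']
    [NormedSpace ℂ W'] (l : W →L[ℂ] W') {F : Cn n → W} {z : Cn n}
    (hF : DifferentiableAt ℝ F z) (b : Fin n) :
    dj b (fun w => l (F w)) z = l (dj b F z) := by
  simpa using dj_clm l 0 hF b

/-- the matrix of a linear map -/
def mt (L : Cn q →L[ℂ] Cn q) : Matrix (Fin q) (Fin q) ℂ :=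
  LinearMap.toMatrix (EuclideanSpace.basisFun _ ℂ).toBasis (EuclideanSpace.basisFun _ ℂ).toBasis L

theorem det_mt (L : Cn q →L[ℂ] Cn q) : (mt L).det = L.det := LinearMap.det_toMatrix _ _

theorem mt_apply (L : Cn q →L[ℂ] Cn q) (y : Cn q) (k : Fin q) :
    L y k = ∑ k', mt L k k' * y k' := by
  have h := congrFun (LinearMap.toMatrix_mulVec_repr (EuclideanSpace.basisFun _ ℂ).toBasis
    (EuclideanSpace.basisFun _ ℂ).toBasis (L : Cn q →ₗ[ℂ] Cn q) y) k
  simpa [mt, Matrix.mulVec, dotProduct] using h.symm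

theorem dV_aff (L : Cn q →L[ℂ] Cn q) (l : Cn q) {i : A.ι} {a : X → Cn q} {x : X}
    (ha : DifferentiableAt ℝ (fun z => a ((A.e i).symm z)) (A.e i x)) :
    dV A i (fun y => L (a y) + l) x = fun k => ∑ k', mt L k k' • dV A i a x k' := by
  funext k b
  have h1 := dj_clm ((EuclideanSpace.proj k).comp L) (l k) ha b
  have h2 := fun k' => dj_clm' (EuclideanSpace.proj (𝕜 := ℂ) k') ha b
  simp only [Finset.sum_apply, Pi.smul_apply, smul_eq_mul]
  refine h1.trans ((mt_apply L _ k).trans (Finset.sum_congr rfl fun k' _ => ?_))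
  exact congrArg _ (h2 k').symm

variable {D : MonD A G} {M : Subgroup G} (Z : Stp D q M)

theorem aV_mul (i : A.ι) (v s : G) (x : X) :
    aV D Z.al i (v * s⁻¹) x = Z.L s (aV D Z.al i v x) + Z.lam s := by
  rw [aV, ← D.deck_pt, Z.eqv, aV]

theorem aV_mul' (i : A.ι) (v s : G) :
    aV D Z.al i v = fun x => Z.L s (aV D Z.al i (v * s) x) + Z.lam s := by
  funext x
  rw [← aV_mul, mul_inv_cancel_right]

theorem aV_hol (i : A.ι) (v : G) :
    DifferentiableOn ℂ (fun z => aV D Z.al i v ((A.e i).symm z)) (A.e i).target := Z.hol (i, v)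

theorem dAt {W : Type*} [NormedAddCommGroup W] [NormedSpace ℂ W] {i : A.ι} {F : Cn n → W}
    (hF : DifferentiableOn ℂ F (A.e i).target) {x : X} (hx : x ∈ (A.e i).source) :
    DifferentiableAt ℝ F (A.e i x) :=
  (hF.differentiableAt ((A.e i).open_target.mem_nhds ((A.e i).map_source hx))).restrictScalars ℝ

theorem dV_mul {i : A.ι} (v s : G) {x : X} (hx : x ∈ (A.e i).source) :
    dV A i (aV D Z.al i v) x =
      fun k => ∑ k', mt (Z.L s) k k' • dV A i (aV D Z.al i (v * s)) x k' := by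
  rw [← dV_aff _ (Z.lam s) (dAt (aV_hol Z i (v * s)) hx), ← aV_mul']

theorem dW_mul {i : A.ι} (v s : G) {x : X} (hx : x ∈ (A.e i).source) :
    dW A i (aV D Z.al i v) x = (Z.L s).det • dW A i (aV D Z.al i (v * s)) x := by
  rw [Gauss.dW_eq, Gauss.dW_eq, dV_mul Z v s hx, Plk.wdg_lin, det_mt]

theorem vol_mul (i : A.ι) (v s : G) (K : Set (Cn n)) :
    volume ((fun z => aV D Z.al i (v * s) ((A.e i).symm z)) '' K) =
      volume ((fun z => aV D Z.al i v ((A.e i).symm z)) '' K) := by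
  have h : (fun z => aV D Z.al i v ((A.e i).symm z)) '' K = (· + Z.lam s) ''
      ((Z.L s).restrictScalars ℝ '' ((fun z => aV D Z.al i (v * s) ((A.e i).symm z)) '' K)) := by
    rw [image_image, image_image, aV_mul' Z i v s]
    rfl
  rw [h, image_add_right, measure_preimage_add_right, Measure.addHaar_image_continuousLinearMap,
    show LinearMap.det _ = _ from Gauss.NP.det_real (Z.L s), Z.det]
  simp

theorem det_mul (g h : G) : (Z.L (g * h)).det = (Z.L g).det * (Z.L h).det := by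
  rw [map_mul]
  exact map_mul LinearMap.det (Z.L g : Cn q →ₗ[ℂ] Cn q) (Z.L h)

theorem det_of_eq {g : G} (h : Z.L g = 1) : (Z.L g).det = 1 := by
  rw [h]
  exact map_one LinearMap.det

variable {H : Type} [NormedAddCommGroup H] [InnerProductSpace ℂ H] [CompleteSpace H]

theorem tw_mul (f : D.cov G → H) {i : A.ι} (v s : G) {x : X} (hx : x ∈ (A.e i).source)
    (I : FI n) : tw D Z.al (fun e => f (s⁻¹ • e)) i v x I =
      (Z.L s).det • tw D Z.al f i (v * s) x I := by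
  have h : aV D (fun e => f (s⁻¹ • e)) i v = aV D f i (v * s) := by
    funext y
    simp only [aV, D.deck_pt, inv_inv]
  simp only [Rel.tw, h, dW_mul Z v s hx, Matrix.mulVec_smul, Pi.smul_apply, Finset.smul_sum,
    smul_assoc]

variable {Z} {a : Act M H} {N : Subgroup G} (m : Min D Z.al a N)

/-- the translates of `S` are locally uniformly bounded -/
theorem unif_bd (i : A.ι) (v : G) {z₀ : Cn n} (hz : z₀ ∈ (A.e i).target) :
    ∃ C : ℝ, 0 ≤ C ∧ ∀ᶠ z in 𝓝 z₀, ∀ s I, ‖m.S i (v * s) ((A.e i).symm z) I‖ ≤ C := by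
  obtain ⟨V, hV, C, hC, h⟩ := m.up i z₀ hz
  obtain ⟨r, hr, h1⟩ := Metric.nhds_basis_closedBall.mem_iff.1
    (inter_mem hV ((A.e i).open_target.mem_nhds hz))
  have hK := isCompact_closedBall z₀ r
  have h2 : volume ((fun z => aV D Z.al i v ((A.e i).symm z)) '' Metric.closedBall z₀ r) < ⊤ :=
    (hK.image_of_continuousOn ((aV_hol Z i v).continuousOn.mono fun z hz => (h1 hz).2)).measure_lt_top
  have h3 := (Metric.measure_ball_pos volume (0 : Cn n) (half_pos hr)).ne'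
  set B := C * volume ((fun z => aV D Z.al i v ((A.e i).symm z)) '' Metric.closedBall z₀ r) /
    volume (Metric.ball (0 : Cn n) (r / 2))
  have hB : B ≠ ⊤ := ENNReal.div_ne_top (ENNReal.mul_ne_top hC.ne h2.ne) h3
  refine ⟨√B.toReal, Real.sqrt_nonneg _, mem_of_superset (Metric.ball_mem_nhds z₀ (half_pos hr))
    fun z hz s I => Real.le_sqrt_of_sq_le ?_⟩
  have h4 : Metric.ball z (r / 2) ⊆ Metric.closedBall z₀ r := fun y hy => by
    rw [Metric.mem_closedBall]
    linarith [dist_triangle y z z₀, Metric.mem_ball.1 hy, Metric.mem_ball.1 hz]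
  have h5 := Gauss.NP.submean volume (g := fun z => m.S i (v * s) ((A.e i).symm z) I) (u := z)
    (B := Metric.ball 0 (r / 2)) (B' := Metric.ball z (r / 2)) Metric.isOpen_ball
    (balanced_ball_zero) (fun v => by simp) fun y hy => (m.lim.S_hol i (v * s) I).differentiableAt
      ((A.e i).open_target.mem_nhds (h1 (h4 hy)).2)
  have h6 := (h5.trans (lintegral_mono_set h4)).trans (h (v * s) _ (fun z hz => (h1 hz).1) hK I)
  rw [vol_mul, Measure.addHaar_ball_center, ← ENNReal.le_div_iff_mul_le (Or.inl h3)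
    (Or.inl measure_ball_lt_top.ne)] at h6
  have h7 := ENNReal.toReal_mono hB h6
  rwa [ENNReal.toReal_pow, toReal_enorm] at h7

variable (σ : Ω → G)

open Classical in
/-- the translates of `S` as a form with values in `ℓ^∞` -/
def SL (i : A.ι) (v : G) (x : X) (I : FI n) : Li Ω H :=
  if hx : x ∈ (A.e i).source then mk (fun ω => (Z.L (σ ω)).det • m.S i (v * σ ω) x I) (by
    obtain ⟨C, -, hC⟩ := unif_bd m i v ((A.e i).map_source hx)
    refine ⟨C, fun ω => ?_⟩
    have h := hC.self_of_nhds (σ ω) I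
    rwa [norm_smul, Z.det, one_mul, ← (A.e i).left_inv hx]) else 0

theorem SL_eq (i : A.ι) (v : G) (x : X) (hx : x ∈ (A.e i).source) (I : FI n) (ω : Ω) :
    SL m σ i v x I ω = (Z.L (σ ω)).det • m.S i (v * σ ω) x I := by
  rw [SL, dif_pos hx, mk_apply]

theorem SL_off (i : A.ι) (v : G) (x : X) (hx : x ∉ (A.e i).source) (I : FI n) :
    SL m σ i v x I = 0 := dif_neg hx

theorem SL_hol' (i : A.ι) (v : G) (I : FI n) (ω : Ω) :
    DifferentiableOn ℂ (fun z => SL m σ i v ((A.e i).symm z) I ω) (A.e i).target :=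
  ((m.lim.S_hol i (v * σ ω) I).const_smul (Z.L (σ ω)).det).congr fun _ hz =>
    SL_eq m σ i v _ ((A.e i).map_target hz) I ω

theorem SL_hol (i : A.ι) (v : G) (I : FI n) :
    DifferentiableOn ℂ (fun z => SL m σ i v ((A.e i).symm z) I) (A.e i).target := by
  refine differentiableOn_li (A.e i).open_target (SL_hol' m σ i v I) fun z hz => ?_
  obtain ⟨C, hC0, hC⟩ := unif_bd m i v hz
  refine ⟨C, (hC.and ((A.e i).open_target.mem_nhds hz)).mono fun y hy =>
    norm_le _ hC0 fun ω => ?_⟩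
  rw [SL_eq m σ i v _ ((A.e i).map_target hy.2), norm_smul, Z.det, one_mul]
  exact hy.1 _ _

/-- evaluation -/
abbrev evL (H : Type) [NormedAddCommGroup H] [InnerProductSpace ℂ H] (ω : Ω) : Li Ω H →L[ℂ] H :=
  lp.evalCLM ℂ (fun _ : Ω => H) ⊤ ω

theorem mv_ev (B : Matrix (FI n) (FI n) ℂ) (S : FI n → Li Ω H) (I : FI n) (ω : Ω) :
    mv B S I ω = mv B (fun I => S I ω) I :=
  (congrFun (Plk.mv_map (evL H ω : Li Ω H →ₗ[ℂ] H) B S) I).symm

theorem SL_ev (i : A.ι) (v : G) (x : X) (hx : x ∈ (A.e i).source) (ω : Ω) :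
    (fun I => SL m σ i v x I ω) = (Z.L (σ ω)).det • m.S i (v * σ ω) x :=
  funext fun I => SL_eq m σ i v x hx I ω

theorem SL_deg (i : A.ι) (v : G) (x : X) (hx : x ∈ (A.e i).source) (I : FI n)
    (hI : I.card ≠ q + 1) : SL m σ i v x I = 0 := by
  ext ω
  rw [SL_eq m σ i v x hx, m.deg i _ x hx I hI, smul_zero]
  rfl

theorem SL_tr (i j : A.ι) (v : G) (x : X) (hx : x ∈ (A.e i).source ∩ (A.e j).source) :
    SL m σ i v x = mv (Gam (Jm A i j x)ᵀ) (SL m σ j (D.c i j x * v) x) := by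
  ext I ω
  rw [mv_ev, SL_ev m σ j _ x hx.2, SL_eq m σ i v x hx.1, m.S_tr i j _ x hx, mul_assoc]
  exact (congrFun (Plk.mv_smul' _ _ _) I).symm

theorem SL_hor (i : A.ι) (v : G) (x : X) (hx : x ∈ (A.e i).source) (k : Fin q) :
    mv (eW (dV A i (aV D Z.al i v) x k)) (SL m σ i v x) = 0 := by
  ext I ω
  rw [mv_ev, SL_ev m σ i v x hx, dV_mul Z v (σ ω) hx]
  have h : Plk.mv (Plk.eWL n (∑ k', mt (Z.L (σ ω)) k k' • dV A i (aV D Z.al i (v * σ ω)) x k'))
      ((Z.L (σ ω)).det • m.S i (v * σ ω) x) = 0 := by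
    rw [map_sum, Plk.mv_sum]
    refine Finset.sum_eq_zero fun k' _ => ?_
    rw [map_smul, Plk.mv_smul, Plk.mv_smul']
    have h : Plk.mv (Plk.eWL n (dV A i (aV D Z.al i (v * σ ω)) x k')) (m.S i (v * σ ω) x) = 0 :=
      m.hor i _ x hx k'
    rw [h, smul_zero, smul_zero]
  exact congrFun h I

theorem closed_map {W W' : Type*} [NormedAddCommGroup W] [NormedSpace ℂ W] [NormedAddCommGroup W']
    [NormedSpace ℂ W'] (l : W →L[ℂ] W') {i : A.ι} {S : X → FI n → W} {S' : X → FI n → W'}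
    (hS : ∀ I, DifferentiableOn ℂ (fun z => S ((A.e i).symm z) I) (A.e i).target)
    (h : ∀ x ∈ (A.e i).source, ∀ I, S' x I = l (S x I)) {x : X} (hx : x ∈ (A.e i).source)
    (J : FI n) : (∑ b, mv (eW (ep b)) (fun I => dl A i b (fun y => S' y I) x)) J =
      l ((∑ b, mv (eW (ep b)) (fun I => dl A i b (fun y => S y I) x)) J) := by
  have h1 : ∀ b I, dl A i b (fun y => S' y I) x = l (dl A i b (fun y => S y I) x) := fun b I =>
    (dj_congr (mem_of_superset ((A.e i).open_target.mem_nhds ((A.e i).map_source hx))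
      fun z hz => h _ ((A.e i).map_target hz) I)).trans (dj_clm' l (dAt (hS I) hx) b)
  simp only [h1, Finset.sum_apply, map_sum]
  exact Finset.sum_congr rfl fun b _ => congrFun (Plk.mv_map (l : W →ₗ[ℂ] W') _ _) J

theorem SL_closed (i : A.ι) (v : G) (x : X) (hx : x ∈ (A.e i).source) :
    ∑ b, mv (eW (ep b)) (fun I => dl A i b (fun y => SL m σ i v y I) x) = 0 := by
  ext J ω
  have h1 := closed_map (evL H ω) (S' := fun y I => SL m σ i v y I ω) (SL_hol m σ i v)
    (fun _ _ _ => rfl) hx J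
  have h2 := closed_map ((Z.L (σ ω)).det • ContinuousLinearMap.id ℂ H)
    (S' := fun y I => SL m σ i v y I ω) (m.lim.S_hol i (v * σ ω))
    (fun y hy I => SL_eq m σ i v y hy I ω) hx J
  rw [m.closed i _ x hx, Pi.zero_apply, map_zero] at h2
  exact h1.symm.trans h2

theorem SL_lim (ω : Ω) :
    Lim D Z.al (fun k e => m.f k ((σ ω)⁻¹ • e)) fun i v x I => SL m σ i v x I ω where
  f_sm k p := by
    refine (m.lim.f_sm k (p.1, p.2 * σ ω)).congr fun z _ => ?_
    change m.f k ((σ ω)⁻¹ • D.pt p.1 p.2 _) = m.f k (D.pt p.1 (p.2 * σ ω) _)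
    rw [D.deck_pt, inv_inv]
  S_hol i v I := SL_hol' m σ i v I ω
  lim i v K hK hK' I := by
    refine (m.lim.lim i (v * σ ω) K hK hK' I).congr fun k =>
      setLIntegral_congr_fun hK'.measurableSet fun z hz => ?_
    have hx := (A.e i).map_target (hK hz)
    simp only [tw_mul Z _ v (σ ω) hx, SL_eq m σ i v _ hx, ← smul_sub, enorm_smul]
    rw [← ofReal_norm (Z.L (σ ω)).det, Z.det, ENNReal.ofReal_one, one_mul]

end

end Crest.Agent.X261.Rel85
end

-- ▼ part X261/Rel/Inst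
section

/-!
# X261, package REL (helper34), file `Inst`: the global fibre primitive

* `Fm Z Ω H W`  : sequences `f ω k` whose forms `∂ f ∧ τ` tend to `ev ω ∘ S`;
* `Fm.Pr`       : a continuous `U` with `f ω k - h ω k ∘ al → ev ω ∘ U` over an open set;
* `Fm.exists_pr`, `Pr.form`, `Pr.const`, `Pr.inv`.
-/

set_option autoImplicit false
set_option linter.unusedSectionVars false
set_option linter.dupNamespace false

open Set Filter Topology Metric Matrix MeasureTheory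
open scoped ENNReal InnerProductSpace

namespace Crest.Agent.X261.Rel

open Crest.Agent.R275.Geo Crest.Agent.R275.Core144
open Crest.Agent.R275.OmT75 (dl dj dj_congr)
open Crest.Agent.R273.UCov_914
open Crest.Agent.R273.Fock_243 (FI Gam eW iW ep)
open Crest.Agent.X261.Top (dW)
open Crest.Agent.X261.Gauss (mv dV)
open Crest.Agent.X261.Plk (w1)
open Crest.Agent.X261.Rel.Nz Crest.Agent.X261.Rel.Core Crest.Agent.X261.Rel.Bx

noncomputable section

variable {n : ℕ} {X : Type} [TopologicalSpace X] {A : Atl n X} {G : Type} [Group G]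
  {D : MonD A G} {q : ℕ} {M : Subgroup G}

/-- approximating sequences with a common limit form -/
structure Fm (Z : Stp D q M) (Ω H W : Type) [NormedAddCommGroup H] [InnerProductSpace ℂ H]
    [NormedAddCommGroup W] [NormedSpace ℂ W] where
  J : H ≃ₗᵢ⋆[ℂ] H
  JW : W → W
  cont : Continuous JW
  ev : Ω → W →L[ℂ] H
  sep : ∀ w, (∀ ω, ev ω w = 0) → w = 0
  ev_J : ∀ ω w, ev ω (JW w) = J (ev ω w)
  f : Ω → ℕ → D.cov G → H
  S : A.ι → G → X → FI n → W
  re : ∀ ω k e, J (f ω k e) = f ω k e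
  lim : ∀ ω, Lim D Z.al (f ω) fun i v x I => ev ω (S i v x I)
  hol : ∀ i v I, DifferentiableOn ℂ (fun z => S i v ((A.e i).symm z) I) (A.e i).target
  deg : ∀ i v, ∀ x ∈ (A.e i).source, ∀ I : FI n, I.card ≠ q + 1 → S i v x I = 0
  hor : ∀ i v, ∀ x ∈ (A.e i).source, ∀ k, mv (eW (dV A i (aV D Z.al i v) x k)) (S i v x) = 0
  closed : ∀ i v, ∀ x ∈ (A.e i).source,
    ∑ b, mv (eW (ep b)) (fun I => dl A i b (fun y => S i v y I) x) = 0

variable {Z : Stp D q M} {Ω H W : Type} [NormedAddCommGroup H] [InnerProductSpace ℂ H]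
  [CompleteSpace H] [NormedAddCommGroup W] [NormedSpace ℂ W] [CompleteSpace W]

/-- boxes of the map `al` in the chart `p` -/
abbrev Stp.Bo (Z : Stp D q M) (p : (D.atl G).ι) (z₀ : Cn n) :=
  Box (fun z => Z.al (((D.atl G).e p).symm z)) z₀ ((D.atl G).e p).target

theorem Stp.Fb.box (F : Z.Fb) {e : D.cov G} (he : Z.al e ∈ F.B) {i : A.ι}
    (hi : D.pr e ∈ (A.e i).source) : Nonempty (Z.Bo (i, D.co i e) (A.e i (D.pr e))) :=
  exists_box (A.e i).open_target ((A.e i).map_source hi) (Z.hol (i, D.co i e))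
    (F.reg i _ _ hi (by rw [D.pt_co hi]; exact he))

theorem Stp.Fb.plq (F : Z.Fb) {e : D.cov G} (he : Z.al e ∈ F.B) (H : Type*)
    [NormedAddCommGroup H] [NormedSpace ℝ H] [CompleteSpace H] (W : Type*) [NormedAddCommGroup W]
    [NormedSpace ℝ W] [CompleteSpace W] :
    ∃ O, IsOpen O ∧ e ∈ O ∧ Plq (NM (D.atl G)) H Z.al W O := by
  obtain ⟨i, hi⟩ := A.cover (D.pr e)
  obtain ⟨b⟩ := F.box he hi
  exact ⟨_, isOpen_bO b, ⟨⟨hi, rfl⟩, b.mem_W⟩, plq_box b H W⟩

namespace Fm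

variable (m : Fm Z Ω H W)

/-- the evaluations as real linear maps -/
def evR (ω : Ω) : W →L[ℝ] H := (m.ev ω).restrictScalars ℝ

theorem loc_box {i : A.ι} {v : G} {z₀ : Cn n} (b : Z.Bo (i, v) z₀) {Φ : Cn n → W}
    (hΦ : DifferentiableOn ℂ Φ b.W) (hS : ∀ z ∈ b.W, m.S i v ((A.e i).symm z) =
      w1 (ta (fun z => aV D Z.al i v ((A.e i).symm z)) z) fun c => dj c Φ z) :
    Loc (NM (D.atl G)) Z.al m.evR m.f (bO b)
      fun y => Φ (A.e i (D.pr y)) + m.JW (Φ (A.e i (D.pr y))) := by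
  have hc : ContinuousOn (fun y => Φ (A.e i (D.pr y))) (bO b) :=
    hΦ.continuousOn.comp (((D.atl G).e (i, v)).continuousOn.mono inter_subset_left)
      fun _ hy => hy.2
  refine ⟨isOpen_bO b, plq_box b H W, hc.add (m.cont.comp_continuousOn hc), ?_⟩
  have hf : ∀ ω k, ContDiffOn ℝ 1 (fun z => m.f ω k (((D.atl G).e (i, v)).symm z)) b.W :=
    fun ω k => (((m.lim ω).f_sm k (i, v)).of_le (by simp)).mono b.W_sub_U
  have hΦ' : ∀ ω, DifferentiableOn ℂ (fun z => m.ev ω (Φ z)) b.W := fun ω =>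
    (m.ev ω).differentiable.comp_differentiableOn hΦ
  choose c h1 _ h3 using fun ω => b.null m.J (hf ω) (fun k z _ => m.re ω k _) (hΦ' ω)
    (S := fun z I => m.ev ω (m.S i v ((A.e i).symm z) I)) (fun z hz => by
      rw [hS z hz]
      refine (Plk.w1_map (m.ev ω : W →ₗ[ℂ] H) _ _).trans (congrArg _ (funext fun c => ?_))
      exact (Rel85.dj_clm' (m.ev ω)
        ((hΦ.differentiableAt (b.isOpen_W.mem_nhds hz)).restrictScalars ℝ) c).symm)
    fun I => ((m.lim ω).lim i v b.K b.K_sub_U b.isCompact_K I).congr fun k =>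
      setLIntegral_congr_fun b.isCompact_K.measurableSet fun z hz => by
        have e : tw D Z.al (m.f ω k) i v ((A.e i).symm z) I =
          w1 (ta (fun z => aV D Z.al i v ((A.e i).symm z)) (A.e i ((A.e i).symm z)))
            (fun c => dj c (fun z => aV D (m.f ω k) i v ((A.e i).symm z))
              (A.e i ((A.e i).symm z))) I := rfl
        rw [(A.e i).right_inv (b.K_sub_U hz)] at e
        rw [e]
        rfl
  refine ⟨c, fun x hx ω => nm_of hx.1 ?_⟩
  have ha : ContinuousOn (fun z => Z.al (((D.atl G).e (i, v)).symm z)) b.W :=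
    (Z.hol (i, v)).continuousOn.mono b.W_sub_U
  have h4 := nulS_of_sq ((measure_mono b.W_sub_K).trans_lt b.isCompact_K.measure_lt_top).ne
    (fun k => (((((hf ω k).continuousOn.sub (hΦ' ω).continuousOn).sub
      (m.J.continuous.comp_continuousOn (hΦ' ω).continuousOn)).sub
      ((h1 ω k).comp ha fun z hz => ?_)).enorm).aemeasurable b.isOpen_W.measurableSet) (h3 ω)
  · refine (h4.mono subset_rfl fun k z hz => le_of_eq (congrArg _ ?_)).nulE
      (b.isOpen_W.mem_nhds hx.2)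
    have e : A.e i (D.pr (((D.atl G).e (i, v)).symm z)) = z := (A.e i).right_inv (b.W_sub_U hz)
    beta_reduce
    rw [e, map_add]
    simp only [evR, ContinuousLinearMap.coe_restrictScalars', m.ev_J, Pi.sub_apply,
      Function.comp_apply]
    abel
  · have h5 := b.symm_mem hz
    rw [b.ball_eq] at h5
    rw [b.a_eq (b.W_sub hz)]
    exact h5.1

theorem prim {i : A.ι} {v : G} {z₀ : Cn n} (b : Z.Bo (i, v) z₀) : ∃ Φ : Cn n → W,
    DifferentiableOn ℂ Φ b.W ∧ ∀ z ∈ b.W, m.S i v ((A.e i).symm z) =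
      w1 (ta (fun z => aV D Z.al i v ((A.e i).symm z)) z) fun c => dj c Φ z := by
  have ht : ∀ z ∈ b.W, z ∈ (A.e i).target := fun z hz => b.W_sub_U hz
  refine (b.prim (S := fun z => m.S i v ((A.e i).symm z))
    (fun I z hz => (m.hol i v I).differentiableAt ((A.e i).open_target.mem_nhds (ht z hz)))
    (fun z hz => m.deg i v _ ((A.e i).map_target (ht z hz))) (fun z hz k => ?_)
    fun z hz => ?_).imp fun Φ h => ⟨h.1, h.2.2⟩
  · have h := m.hor i v _ ((A.e i).map_target (ht z hz)) k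
    have e : dV A i (aV D Z.al i v) ((A.e i).symm z) =
      th (fun z => aV D Z.al i v ((A.e i).symm z)) (A.e i ((A.e i).symm z)) := rfl
    rw [e, (A.e i).right_inv (ht z hz)] at h
    exact h
  · have h := m.closed i v _ ((A.e i).map_target (ht z hz))
    simp only [dl, (A.e i).right_inv (ht z hz)] at h
    exact h

/-- a global fibre primitive -/
structure Pr (F : Z.Fb) where
  B : Set (Cn q)
  opn : IsOpen B
  sub : B ⊆ F.B
  ne : ∃ e, Z.al e ∈ B
  h : Ω → ℕ → Cn q → H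
  U : D.cov G → W
  cont : ∀ e, Z.al e ∈ B → ContinuousAt U e
  apx : ∀ e, Z.al e ∈ B → Apx (NM (D.atl G)) Z.al m.evR m.f h U e

theorem exists_pr (F : Z.Fb) : Nonempty (m.Pr F) := by
  obtain ⟨e₀, he₀⟩ := F.ne
  obtain ⟨i₀, hi₀⟩ := A.cover (D.pr e₀)
  obtain ⟨b₀⟩ := F.box he₀ hi₀
  obtain ⟨Φ₀, h1, h2⟩ := m.prim b₀
  have h0 : Z.al (((D.atl G).e (i₀, D.co i₀ e₀)).symm (A.e i₀ (D.pr e₀))) = Z.al e₀ :=
    congrArg Z.al (((D.atl G).e (i₀, D.co i₀ e₀)).left_inv (x := e₀) ⟨hi₀, rfl⟩)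
  obtain ⟨h, U, hU⟩ := core (idl (D.atl G)) (ev := m.evR) m.sep (Mp.cont_al Z)
    (T := Z.al ⁻¹' (F.B ∩ ball (Z.al e₀) b₀.ρ)) (fun e he => by
      obtain ⟨i, hi⟩ := A.cover (D.pr e)
      obtain ⟨b⟩ := F.box he.1 hi
      obtain ⟨Φ, h1, h2⟩ := m.prim b
      exact ⟨bO b, _, ⟨⟨hi, rfl⟩, b.mem_W⟩, m.loc_box b h1 h2⟩) (m.loc_box b₀ h1 h2)
    fun e he => by
      have hu : (Z.al e, (0 : Cn b₀.r)) ∈ ball b₀.o b₀.ρ := by
        rw [b₀.ball_eq, h0]
        exact ⟨he.2, mem_ball_self b₀.pos⟩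
      refine ⟨Z.al ⁻¹' {Z.al e}, fun y hy => ?_, F.conn _ he.1, rfl, fun y hy => hy,
        bs b₀ (Z.al e, 0), a_bs b₀ (b₀.sub' hu), bs_mem b₀ hu⟩
      rw [mem_preimage, show Z.al y = Z.al e from hy]
      exact he
  exact ⟨⟨_, F.opn.inter isOpen_ball, inter_subset_left, ⟨e₀, he₀, mem_ball_self b₀.pos⟩, h, U,
    fun e he => (hU e he).1, fun e he => (hU e he).2⟩⟩

namespace Pr

variable {m} {F : Z.Fb} (P : m.Pr F)

theorem isOpen : IsOpen (Z.al ⁻¹' P.B) := P.opn.preimage (Mp.cont_al Z)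

theorem continuousOn : ContinuousOn P.U (Z.al ⁻¹' P.B) := fun e he =>
  (P.cont e he).continuousWithinAt

theorem form_of {O : Set (D.cov G)} {Ψ : D.cov G → W}
    (hL : Loc (NM (D.atl G)) Z.al m.evR m.f O Ψ) {e : D.cov G} (hO : e ∈ O) (he : Z.al e ∈ P.B) :
    ∃ c : Cn q → W, ∀ᶠ y in 𝓝 e, P.U y = Ψ y + c (Z.al y) :=
  hL.form (idl _) m.sep (Mp.cont_al Z) hO P.isOpen he P.continuousOn P.apx

/-- the local form of the primitive -/
theorem form {e : D.cov G} (he : Z.al e ∈ P.B) {i : A.ι} (hi : D.pr e ∈ (A.e i).source) :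
    ∃ (Φ : Cn n → W) (c : Cn q → W), AnalyticAt ℂ Φ (A.e i (D.pr e)) ∧ ∀ᶠ x in 𝓝 (D.pr e),
      P.U (D.pt i (D.co i e) x) =
        Φ (A.e i x) + m.JW (Φ (A.e i x)) + c (aV D Z.al i (D.co i e) x) ∧
      m.S i (D.co i e) x = w1 (dW A i (aV D Z.al i (D.co i e)) x) fun b => dj b Φ (A.e i x) := by
  obtain ⟨b⟩ := F.box (P.sub he) hi
  obtain ⟨Φ, h1, h2⟩ := m.prim b
  obtain ⟨c, hc⟩ := P.form_of (m.loc_box b h1 h2) ⟨⟨hi, rfl⟩, b.mem_W⟩ he
  refine ⟨Φ, c, R266.SCV.analyticOnNhd_of_differentiableOn b.isOpen_W h1 _ b.mem_W, ?_⟩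
  have h3 : Tendsto (D.pt i (D.co i e)) (𝓝 (D.pr e)) (𝓝 e) := by
    simpa only [ContinuousAt, D.pt_co hi] using
      (D.continuousOn_pt i (D.co i e)).continuousAt ((A.e i).open_source.mem_nhds hi)
  filter_upwards [h3.eventually hc, (A.e i).open_source.mem_nhds hi,
    ((A.e i).continuousAt hi).eventually (b.isOpen_W.mem_nhds b.mem_W)] with x h4 h5 h6
  refine ⟨h4, ?_⟩
  have h7 := h2 _ h6
  rw [(A.e i).left_inv h5] at h7
  exact h7

theorem deck {g : G} (hg : g ∈ M) {e : D.cov G} (he : Z.al e ∈ P.B) (ω : Ω) :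
    Nv (NM (D.atl G))
      (fun k y => m.f ω k (g • y) - P.h ω k (Z.al y) - m.evR ω (P.U (g • y))) e := by
  have h := NM.deck (P.apx (g • e) (by rwa [Mp.al_M Z hg]) ω)
  simp only [Mp.al_M Z hg] at h
  exact h

theorem cont_deck {g : G} (hg : g ∈ M) : ContinuousOn (fun y => P.U (g • y)) (Z.al ⁻¹' P.B) :=
  P.continuousOn.comp (continuous_const_smul g).continuousOn fun y hy => by
    rwa [mem_preimage, Mp.al_M Z hg]

/-- invariance -/
theorem inv {g : G} (hg : g ∈ M) (hf : ∀ ω k y, m.f ω k (g • y) = m.f ω k y) {e : D.cov G}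
    (he : Z.al e ∈ P.B) : P.U (g • e) = P.U e :=
  Apx.uniq (idl _) m.sep (U := fun y => P.U (g • y))
    (fun ω => by simpa only [hf] using (P.deck hg he ω :)) (P.apx e he)
    ((P.cont_deck hg).continuousAt (P.isOpen.mem_nhds he)) (P.cont e he)

/-- equivariance up to a function on the base -/
theorem const {g : G} (hg : g ∈ M) (τ : Ω → Ω) (p : Ω → H ≃ₗᵢ[ℂ] H) (β : Ω → H) {T : W → W}
    (hT : Continuous T) (h1 : ∀ ω w, m.ev ω (T w) = p ω (m.ev (τ ω) w))
    (hf : ∀ ω k y, m.f ω k (g • y) = p ω (m.f (τ ω) k y) + β ω) {e e' : D.cov G}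
    (he : Z.al e ∈ P.B) (h : Z.al e' = Z.al e) :
    P.U (g • e) - T (P.U e) = P.U (g • e') - T (P.U e') := by
  refine const_of_nv (idl (D.atl G)) (ev := m.evR) m.sep (Mp.cont_al Z) P.isOpen
    (fun y hy => F.plq (P.sub hy) H W) (v := fun y => P.U (g • y) - T (P.U y))
    ((P.cont_deck hg).sub (hT.comp_continuousOn P.continuousOn))
    (d := fun ω k t => p ω (P.h (τ ω) k t) + β ω - P.h ω k t) (fun y hy ω => ?_)
    (Y := Z.al ⁻¹' {Z.al e}) (fun y hy => ?_) (F.conn _ (P.sub he)) (fun y hy => hy) rfl h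
  · have h2 := (idl _).of_le (P.apx y hy (τ ω))
      (g' := fun k y => p ω (m.f (τ ω) k y - P.h (τ ω) k (Z.al y) - m.ev (τ ω) (P.U y)))
      fun k y => ((p ω).norm_map _).le
    refine (idl _).congr ((idl _).vsub (P.deck hg hy ω) h2) (Eventually.of_forall fun y k => ?_)
    simp only [evR, ContinuousLinearMap.coe_restrictScalars', map_sub, h1, hf]
    abel
  · rw [mem_preimage, show Z.al y = Z.al e from hy]
    exact he

end Pr

end Fm

end

end Crest.Agent.X261.Rel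
end

-- ▼ part X261/Rel/Vert
section

/-!
# X261, package REL (helper34), file `Vert`: the limit form does not vanish
-/

set_option autoImplicit false
set_option linter.unusedSectionVars false
set_option linter.dupNamespace false

open Set Filter Topology Metric Matrix MeasureTheory
open scoped ENNReal InnerProductSpace

namespace Crest.Agent.X261.Rel

open Crest.Agent.R275.Geo Crest.Agent.R275.Core144
open Crest.Agent.R275.OmT75 (dl dj dj_congr)
open Crest.Agent.R273.UCov_914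
open Crest.Agent.R273.Fock_243 (FI Gam eW iW ep)
open Crest.Agent.X261.Gauss (mv dV)
open Crest.Agent.X261.Plk (w1)
open Crest.Agent.X261.Rel.Core Crest.Agent.X261.Rel.Bx

theorem mv_zero {n : ℕ} {W : Type*} [AddCommMonoid W] [Module ℂ W] (B : Matrix (FI n) (FI n) ℂ) :
    mv B (fun _ => (0 : W)) = 0 := by
  funext I
  simp [mv]

theorem dj_zero {n : ℕ} {W : Type*} [NormedAddCommGroup W] [NormedSpace ℂ W] (b : Fin n)
    (z : Cn n) : dj b (fun _ => (0 : W)) z = 0 := by simp [dj]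

/-- **VERT** -/
theorem vert : VertStmt := by
  intro n X _ A G _ D q M Z F H _ _ _ a f S hl hJ hf hN
  by_contra h0
  push Not at h0
  let m : Fm Z Unit H H :=
    { J := a.J
      JW := a.J
      cont := a.J.continuous
      ev := fun _ => ContinuousLinearMap.id ℂ H
      sep := fun w h => h ()
      ev_J := fun _ _ => rfl
      f := fun _ => f
      S := fun _ _ _ _ => 0
      re := fun _ => hJ
      lim := fun _ => ⟨hl.f_sm, fun _ _ _ => differentiableOn_const _, fun i v K hK hc I =>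
        (hl.lim i v K hK hc I).congr fun k => setLIntegral_congr_fun hc.measurableSet fun z hz => by
          rw [h0 i v _ ((A.e i).map_target (hK hz))]
          rfl⟩
      hol := fun _ _ _ => differentiableOn_const _
      deg := fun _ _ _ _ _ _ => rfl
      hor := fun _ _ _ _ _ => mv_zero _
      closed := fun i v x _ => Finset.sum_eq_zero fun b _ => by
        simp only [dl, dj_zero]
        exact mv_zero _ }
  obtain ⟨P⟩ := m.exists_pr F
  have hU : ∀ g ∈ M, ∀ e, Z.al e ∈ P.B → P.U (g • e) = P.U e := fun g hg e he => by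
    refine const_of_loc (F.conn _ (P.sub he)) (fun y hy => ?_) (Mp.al_M Z hg e) rfl
    have hy' : Z.al y ∈ P.B := by rwa [show Z.al y = Z.al e from hy]
    obtain ⟨i, hi⟩ := A.cover (D.pr y)
    obtain ⟨b⟩ := F.box (P.sub hy') hi
    obtain ⟨c, hc⟩ := P.form_of (m.loc_box b (Φ := fun _ => 0) (differentiableOn_const _)
      fun z _ => by
        funext I
        simp [m, w1, dj_zero]) ⟨⟨hi, rfl⟩, b.mem_W⟩ hy'
    filter_upwards [mem_nhdsWithin_of_mem_nhds hc, self_mem_nhdsWithin] with w h1 h2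
    rw [h1, hc.self_of_nhds, show Z.al w = Z.al y from h2.trans hy.symm]
  obtain ⟨T, c, hc, hT⟩ := hN
  obtain ⟨e, he⟩ := P.ne
  have h1 : ∀ s ∈ T, Nv (NM (D.atl G)) (fun k y => a.α s (P.h () k (Z.al y) + P.U y) -
      (P.h () k (Z.al y) + P.U y)) e := fun s _ => by
    have h2 := (idl _).of_le (P.apx e he ())
      (g' := fun k y => a.π s (f k y - P.h () k (Z.al y) - P.U y))
      fun k y => ((a.π s).norm_map _).le
    refine (idl _).congr ((idl _).vsub (P.deck s.2 he ()) h2) ?_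
    filter_upwards [P.isOpen.mem_nhds he] with y hy k
    rw [hU s s.2 y hy, sub_sub (f k y), ← a.α_sub]
    change _ = f k ((s : G) • y) - _ - P.U y - _
    rw [hf]
    abel
  refine (idl (D.atl G)).pos (c := ENNReal.ofReal c) (ENNReal.ofReal_pos.2 hc).ne'
    (Eventually.of_forall fun y k => ?_) ((idl _).sum T h1)
  obtain ⟨s, hs, h2⟩ := hT (P.h () k (Z.al y) + P.U y)
  refine le_trans ?_ (Finset.single_le_sum (fun _ _ => zero_le) hs)
  rw [← ofReal_norm]
  exact ENNReal.ofReal_le_ofReal h2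

end Crest.Agent.X261.Rel
end

-- ▼ part X261/Rel85/AvgB
section

/-!
# Row 261, REL (helper85), AVG part B: the induced representation and the frame
-/

set_option autoImplicit false
set_option linter.unusedSectionVars false

open Set Filter Topology Complex Matrix MeasureTheory
open scoped ENNReal InnerProductSpace

namespace Crest.Agent.X261.Rel85

open Crest.Agent.R275.Geo Crest.Agent.R275.Core144
open Crest.Agent.R275.OmT75 (dl)
open Crest.Agent.R273.UCov_914
open Crest.Agent.R273.Fock_243 (FI Gam eW iW ep)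
open Crest.Agent.X261.Top (dW)
open Crest.Agent.X261.Gauss (mv dV Frm)
open Crest.Agent.X261.Rel Crest.Agent.X261.Rel.Act Crest.Agent.X261.Rel.Ms
open Crest.Agent.R189.MeanF

noncomputable section

variable {n : ℕ} {X : Type} [TopologicalSpace X] {A : Atl n X} {G : Type} [Group G] {q : ℕ}
  {D : MonD A G} {M N : Subgroup G} {Z : Stp D q M}
  {H : Type} [NormedAddCommGroup H] [InnerProductSpace ℂ H] [CompleteSpace H]

theorem cc_mul (g h : G) (ω : G ⧸ M) : cc M (g * h) ω = cc M g ω * cc M h (g⁻¹ • ω) := by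
  apply Subtype.ext
  simp only [Subgroup.coe_mul, cc_coe, _root_.mul_inv_rev, mul_smul]
  group

/-- the induced representation -/
def ind (a : Act M H) (μ : Mn (G ⧸ M)) (hμ : ∀ g : G, Inv μ (MulAction.toPerm g)) :
    Rep G (Ms μ H) where
  π := MonoidHom.mk' (fun g => map (hμ g⁻¹) fun ω => a.π (cc M g ω)) fun g h => by
    ext x
    refine induction μ (P := fun x => map (hμ (g * h)⁻¹) (fun ω => a.π (cc M (g * h) ω)) x =
      map (hμ g⁻¹) (fun ω => a.π (cc M g ω)) (map (hμ h⁻¹) (fun ω => a.π (cc M h ω)) x))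
      (isClosed_eq (by fun_prop) (by fun_prop)) (fun u => ?_) x
    simp only [map_i]
    congr 1
    ext ω
    simp only [lm_apply, cc_mul, Rep.π_mul, MulAction.toPerm_apply, _root_.mul_inv_rev, mul_smul]
  J := map (inv_refl μ) fun _ => a.J
  JJ x := by
    refine induction μ (P := fun x => map (inv_refl μ) (fun _ => a.J)
      (map (inv_refl μ) (fun _ => a.J) x) = x)
      (isClosed_eq (by fun_prop) (by fun_prop)) (fun u => ?_) x
    simp only [map_i]
    congr 1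
    ext ω
    simp [a.JJ]
  Jπ g x := by
    refine induction μ (P := fun x => map (inv_refl μ) (fun _ => a.J)
      (map (hμ g⁻¹) (fun ω => a.π (cc M g ω)) x) =
      map (hμ g⁻¹) (fun ω => a.π (cc M g ω)) (map (inv_refl μ) (fun _ => a.J) x))
      (isClosed_eq (by fun_prop) (by fun_prop)) (fun u => ?_) x
    simp only [map_i]
    congr 1
    ext ω
    simp [a.Jπ]

theorem fx_mem {W : Type} [NormedAddCommGroup W] [InnerProductSpace ℂ W] [N.Normal] (r : Rep G W)
    (g : G) (c : ℂ) {ξ : W} (h : ξ ∈ Fx r N) : c • r.π g ξ ∈ Fx r N :=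
  (Fx r N).smul_mem c fun s hs => by
    have h1 := h _ (Subgroup.Normal.conj_mem' ‹_› s hs g)
    conv_rhs => rw [← h1]
    rw [← r.π_mul, ← r.π_mul]
    congr 2
    group

variable (Z) in
/-- the twisted representation on the fixed vectors -/
def rho {W : Type} [NormedAddCommGroup W] [InnerProductSpace ℂ W] [N.Normal] (r : Rep G W) :
    G →* (Fx r N ≃ₗᵢ[ℂ] Fx r N) :=
  MonoidHom.mk' (fun g =>
    { toFun := fun ξ => ⟨(Z.L g).det • r.π g ξ, fx_mem r g _ ξ.2⟩
      invFun := fun ξ => ⟨(Z.L g⁻¹).det • r.π g⁻¹ ξ, fx_mem r g⁻¹ _ ξ.2⟩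
      map_add' := fun ξ η => Subtype.ext (by simp)
      map_smul' := fun c ξ => Subtype.ext (by simp [smul_comm c])
      left_inv := fun ξ => Subtype.ext (by
        simp only [map_smul, smul_smul, Rep.π_inv_π, ← det_mul, inv_mul_cancel,
          det_of_eq Z (map_one _), one_smul])
      right_inv := fun ξ => Subtype.ext (by
        simp only [map_smul, smul_smul, Rep.π_π_inv, ← det_mul, mul_inv_cancel,
          det_of_eq Z (map_one _), one_smul])
      norm_map' := fun ξ => by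
        change ‖(Z.L g).det • r.π g ξ‖ = ‖(ξ : W)‖
        rw [norm_smul, Z.det, one_mul, LinearIsometryEquiv.norm_map] })
    fun g h => LinearIsometryEquiv.ext fun ξ => Subtype.ext (by
      change (Z.L (g * h)).det • r.π (g * h) ξ = (Z.L g).det • r.π g ((Z.L h).det • r.π h ξ)
      rw [det_mul, r.π_mul, map_smul, smul_smul])

variable {a : Act M H} (m : Min D Z.al a N)

theorem SL_eqv (h : G) (i : A.ι) (v : G) (x : X) (hx : x ∈ (A.e i).source) (I : FI n) :
    SL m (fun ω : G ⧸ M => ω.out) i (v * h⁻¹) x I =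
      (Z.L h).det • tl a h (SL m (fun ω : G ⧸ M => ω.out) i v x I) := by
  ext ω
  have h1 : ω.out * cc M h ω = h * (h⁻¹ • ω).out := by rw [cc_coe]; group
  have h2 : (Z.L ω.out).det = (Z.L h).det * (Z.L (h⁻¹ • ω).out).det := by
    rw [← det_mul, ← h1, det_mul, det_of_eq Z (Z.L_M _ (cc M h ω).2), mul_one]
  have h3 : v * h⁻¹ * ω.out = v * (h⁻¹ • ω).out * (cc M h ω : G)⁻¹ := by rw [cc_coe]; group
  change _ = (Z.L h).det • a.π (cc M h ω) (SL m (fun ω : G ⧸ M => ω.out) i v x I (h⁻¹ • ω))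
  rw [SL_eq _ _ _ _ _ hx, SL_eq _ _ _ _ _ hx, h2, h3, m.S_eqv _ i _ x hx, map_smul, mul_smul]

theorem SL_N [N.Normal] {Ω : Type*} (σ : Ω → G) {h : G} (hh : h ∈ N) (i : A.ι) (v : G) (x : X)
    (hx : x ∈ (A.e i).source) (I : FI n) : SL m σ i (v * h⁻¹) x I = SL m σ i v x I := by
  ext ω
  have h1 : v * h⁻¹ * σ ω = v * σ ω * ((σ ω)⁻¹ * h * σ ω)⁻¹ := by group
  rw [SL_eq _ _ _ _ _ hx, SL_eq _ _ _ _ _ hx, h1,
    m.S_N _ (Subgroup.Normal.conj_mem' ‹_› h hh _) i _ x hx]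

theorem mv_clm {W W' : Type*} [NormedAddCommGroup W] [NormedSpace ℂ W] [NormedAddCommGroup W']
    [NormedSpace ℂ W'] (l : W →L[ℂ] W') (B : Matrix (FI n) (FI n) ℂ) (S : FI n → W) :
    mv B (fun I => l (S I)) = fun I => l (mv B S I) := Plk.mv_map (l : W →ₗ[ℂ] W') B S

theorem exists_frm {Ω : Type} [Nonempty Ω] (σ : Ω → G) (μ : Mn Ω) {W : Type} [NormedAddCommGroup W]
    [InnerProductSpace ℂ W] (P : Li Ω H →L[ℂ] W)
    (hP : ∀ j v x I, ‖P (SL m σ j v x I)‖ = ‖i μ (SL m σ j v x I)‖) (ρ : G →* (W ≃ₗᵢ[ℂ] W))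
    (hρ : ∀ (g : G) j v, ∀ x ∈ (A.e j).source, ∀ I,
      P (SL m σ j (v * g⁻¹) x I) = ρ g (P (SL m σ j v x I)))
    (hτ : ∃ i v, ∃ x ∈ (A.e i).source, dW A i (aV D Z.al i v) x ≠ 0)
    (hS : ∃ i v, ∃ x ∈ (A.e i).source, m.S i v x ≠ 0) : ∃ Φ : Frm D q W, Φ.a = aV D Z.al ∧
      (Φ.S = fun j v x I => P (SL m σ j v x I)) ∧ Φ.ρ = ρ := by
  have hc : ∀ j v I, ∀ K ⊆ (A.e j).target,
      ContinuousOn (fun z => SL m σ j v ((A.e j).symm z) I) K :=
    fun j v I K hK => (SL_hol m _ j v I).continuousOn.mono hK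
  have hn : ∀ j v I ω, ∀ K ⊆ (A.e j).target, IsCompact K →
      ENNReal.ofReal (∫ z in K, ‖SL m σ j v ((A.e j).symm z) I ω‖ ^ 2) =
        ∫⁻ z in K, ‖m.S j (v * σ ω) ((A.e j).symm z) I‖ₑ ^ 2 := fun j v I ω K hK hK' => by
    rw [lint_sq hK' ((m.lim.S_hol j _ I).continuousOn.mono hK)]
    congr 1
    refine setIntegral_congr_fun hK'.measurableSet fun z hz => ?_
    simp only [SL_eq m _ j v _ ((A.e j).map_target (hK hz)), norm_smul, Z.det, one_mul]
  refine ⟨{ a := aV D Z.al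
            a_hol := fun j v k =>
              ((EuclideanSpace.proj (𝕜 := ℂ) k).differentiable.comp_differentiableOn
                (aV_hol Z j v)).mono inter_subset_left
            a_tr := fun j l v x hx => ⟨0, fun y hy => ?_⟩
            a_eqv := fun g =>
              ⟨mt (Z.L g), by rw [det_mt, Z.det], fun j v => ⟨Z.lam g, fun x _ k => ?_⟩⟩
            tau_ne := hτ
            S := fun j v x I => P (SL m σ j v x I)
            S_hol := fun j v I => P.differentiable.comp_differentiableOn (SL_hol m _ j v I)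
            S_tr := fun j l v x hx => ?_
            ρ := ρ
            S_eqv := hρ
            deg := fun j v x hx I hI => by rw [SL_deg m _ j v x hx I hI, map_zero]
            hor := fun j v x hx k => ?_
            closed := fun j v x hx => funext fun J => ?_
            S_ne := ?_
            bd := fun j v z₀ hz => ?_ }, rfl, rfl, rfl⟩
  · rw [add_zero, aV, aV, D.pt_eq v hy.1 hy.2, D.c_loc j l x hx y hy, smul_eq_mul]
  · rw [aV_mul, PiLp.add_apply, mt_apply]
  · rw [mv_clm, ← SL_tr m _ j l v x hx]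
  · rw [mv_clm, SL_hor m _ j v x hx k]
    exact funext fun _ => map_zero P
  · rw [closed_map P (SL_hol m _ j v) (fun _ _ _ => rfl) hx J, SL_closed m _ j v x hx]
    exact map_zero P
  · by_contra h0
    push Not at h0
    obtain ⟨T, K, c, hc0, hK, h⟩ := m.low hS
    have h1 := fun p : (A.ι × G) × FI n =>
      int_mean μ (hK p.1.1).1 (hc p.1.1 p.1.2 p.2 _ (hK p.1.1).2)
    obtain ⟨h2, h3⟩ := mean_sum μ (T ×ˢ Finset.univ) fun p => (h1 p).1
    have h4 : ∀ ω : Ω, c ≤ ENNReal.ofReal (∑ p ∈ T ×ˢ Finset.univ,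
        ∫ z in K p.1.1, ‖SL m σ p.1.1 p.1.2 ((A.e p.1.1).symm z) p.2 ω‖ ^ 2) := fun ω => by
      rw [ENNReal.ofReal_sum_of_nonneg fun _ _ => integral_nonneg fun _ => sq_nonneg _,
        Finset.sum_product]
      simp only [hn _ _ _ _ _ (hK _).2 (hK _).1]
      exact h _
    have h5 : c ≠ ⊤ := ne_top_of_le_ne_top ENNReal.ofReal_ne_top (h4 (Classical.arbitrary Ω))
    have h6 := μ.is.mono (Bdd.const c.toReal) h2 fun ω => ENNReal.toReal_le_of_le_ofReal
      (Finset.sum_nonneg fun _ _ => integral_nonneg fun _ => sq_nonneg _) (h4 ω)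
    rw [μ.is.const, h3, Finset.sum_eq_zero fun p _ => ?_] at h6
    · exact absurd h6 (not_le.2 (ENNReal.toReal_pos hc0.ne' h5))
    · rw [← (h1 p).2]
      refine setIntegral_eq_zero_of_forall_eq_zero fun z hz => ?_
      rw [← hP, congrFun (h0 _ _ _ ((A.e _).map_target ((hK _).2 hz))) p.2]
      simp
  · obtain ⟨V, hV, C, hC, h⟩ := m.up j z₀ hz
    refine ⟨V ∩ (A.e j).target, inter_mem hV ((A.e j).open_target.mem_nhds hz), C, hC,
      fun K hK hK' I => ?_⟩
    have h1 := hK.trans inter_subset_right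
    obtain ⟨h2, h3⟩ := int_mean μ hK' (hc j v I K h1)
    have h4 : volume ((fun z => aV D Z.al j v ((A.e j).symm z)) '' K) < ⊤ :=
      (hK'.image_of_continuousOn ((aV_hol Z j v).continuousOn.mono h1)).measure_lt_top
    rw [lint_sq (F := fun z => P (SL m σ j v ((A.e j).symm z) I)) hK'
      (P.continuous.comp_continuousOn (hc j v I K h1))]
    refine ENNReal.ofReal_le_of_le_toReal ?_
    simp only [hP]
    rw [h3, ← μ.is.const (ENNReal.toReal _)]
    refine μ.is.mono h2 (Bdd.const _) fun ω => ?_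
    rw [← ENNReal.ofReal_le_iff_le_toReal (ENNReal.mul_ne_top hC.ne h4.ne), hn j v I ω K h1 hK',
      ← vol_mul Z j v (σ ω)]
    exact h _ K (hK.trans inter_subset_left) hK' I

/-- **AVG** -/
theorem av : AvStmt := by
  intro n X _ A G _ D q M N _ _ Z H _ _ _ a m hA hN hτ hS
  obtain ⟨μ, hμ0⟩ := exists_mean hA
  have hμ : ∀ g : G, Inv μ (MulAction.toPerm g) := fun g f hf => by
    rw [← hμ0 (g : G ⧸ M) f hf]
    congr 1
  obtain ⟨r, hπ, hJ⟩ : ∃ r : Rep G (Ms μ H), (∀ g u, r.π g (i μ u) = i μ (tl a g u)) ∧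
      ∀ u, r.J (i μ u) = i μ (jl a u) :=
    ⟨ind a μ hμ, fun g u => map_i (hμ g⁻¹) _ u, fun u => map_i (inv_refl μ) _ u⟩
  have hF : ∀ j v x I, i μ (SL m (fun ω : G ⧸ M => ω.out) j v x I) ∈ Fx r N :=
    fun j v x I g hg => by
    by_cases hx : x ∈ (A.e j).source
    · have h := SL_eqv m g j v x hx I
      rw [SL_N m _ hg j v x hx, det_of_eq Z (hN g hg), one_smul] at h
      rw [hπ, ← h]
    · simp only [SL_off _ _ _ _ _ hx, map_zero]
  obtain ⟨P, hP⟩ : ∃ P : Li (G ⧸ M) H →L[ℂ] Fx r N, ∀ j v x I,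
      (P (SL m (fun ω : G ⧸ M => ω.out) j v x I) : Ms μ H) =
        i μ (SL m (fun ω : G ⧸ M => ω.out) j v x I) :=
    ⟨(Fx r N).orthogonalProjectionOnto.comp (i μ), fun j v x I =>
      Submodule.starProjection_eq_self_iff.2 (hF j v x I)⟩
  obtain ⟨Φ, h1, h2, h3⟩ := exists_frm m (fun ω : G ⧸ M => ω.out) μ P
    (fun j v x I => by rw [← hP]; rfl) (rho Z r) (fun g j v x hx I => Subtype.ext (by
      change _ = (Z.L g).det • r.π g (P (SL m (fun ω : G ⧸ M => ω.out) j v x I))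
      rw [hP, hP, hπ, ← map_smul, ← SL_eqv m g j v x hx])) hτ hS
  exact ⟨⟨μ, _, SL_eq m _, SL_hol m _, SL_deg m _, SL_hor m _, SL_closed m _, SL_lim m _, r, hπ,
    hJ, Φ, h1, fun j v x _ I => by rw [h2]; exact hP j v x I, fun g ξ => by rw [h3]; rfl⟩⟩

end

end Crest.Agent.X261.Rel85
end

-- ▼ part X261/Rel/Main

/-!
# X261, package REL (helper34), file `Main`: the frame, the fibre primitives and `NoFix`
-/

set_option autoImplicit false
set_option linter.unusedSectionVars false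
set_option linter.dupNamespace false

open Set Filter Topology Metric Matrix MeasureTheory
open scoped ENNReal InnerProductSpace ComplexConjugate

namespace Crest.Agent.X261.Rel

open Crest.Agent.R275.Geo Crest.Agent.R275.Core144
open Crest.Agent.R275.OmT75 (dl dj dj_congr)
open Crest.Agent.R273.UCov_914
open Crest.Agent.R273.Fock_243 (FI Gam eW iW ep)
open Crest.Agent.R281.Kd_22 (Hm)
open Crest.Agent.X261.Top (dW)
open Crest.Agent.X261.Gauss (mv dV Frm Up)
open Crest.Agent.X261.Plk (w1)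
open Crest.Agent.X261.Rel.Act (Act Rep)
open Crest.Agent.X261.Rel.Ms (Mn Li Ms lm)

noncomputable section

theorem cont_lm {Ω H H' : Type*} [NormedAddCommGroup H] [NormedAddCommGroup H']
    [InnerProductSpace ℂ H] [InnerProductSpace ℂ H'] {σ σ' : ℂ →+* ℂ} [RingHomInvPair σ σ']
    [RingHomInvPair σ' σ] (τ : Ω ≃ Ω) (U : Ω → H ≃ₛₗᵢ[σ] H') : Continuous (lm τ U) :=
  AddMonoidHomClass.continuous_of_bound (lm τ U) 1 fun u => by
    rw [one_mul]
    refine Ms.norm_le _ (norm_nonneg _) fun ω => ?_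
    rw [Ms.lm_apply, LinearIsometryEquiv.norm_map]
    exact Ms.norm_apply_le u _

theorem w1_scal {n : ℕ} (τ : FI n → ℂ) (η : Fin n → ℂ) : w1 τ η = eW η *ᵥ τ := by
  funext I
  rw [Plk.w1_dec τ (α := Unit) (l := fun _ => η) (β := fun _ => 1) (fun j => by simp) I]
  simp

section re

variable {G : Type} [Group G] {W : Type} [NormedAddCommGroup W] [InnerProductSpace ℂ W]
  (r : Rep G W) {N : Subgroup G}

theorem π_re {g : G} {ξ : W} (h : r.π g ξ = ξ) : r.π g (ξ + r.J ξ) = ξ + r.J ξ := by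
  rw [map_add, ← r.Jπ, h]

/-- twice the real part -/
def re (ξ : Fx r N) : Fx r N := ⟨ξ + r.J ξ, fun g hg => π_re r (ξ.2 g hg)⟩

theorem J_re (ξ : Fx r N) : r.J (re r ξ : W) = re r ξ := by
  change r.J (ξ + r.J ξ) = ξ + r.J ξ
  rw [map_add, r.JJ, add_comm]

theorem inner_of_re {ξ w : Fx r N} (h1 : ⟪re r ξ, w⟫_ℂ = 0) (h2 : ⟪re r (Complex.I • ξ), w⟫_ℂ = 0) :
    ⟪ξ, w⟫_ℂ = 0 := by
  change ⟪(ξ : W) + r.J ξ, (w : W)⟫_ℂ = 0 at h1
  change ⟪Complex.I • (ξ : W) + r.J (Complex.I • (ξ : W)), (w : W)⟫_ℂ = 0 at h2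
  change ⟪(ξ : W), (w : W)⟫_ℂ = 0
  rw [map_smulₛₗ, inner_add_left, inner_smul_left, inner_smul_left] at h2
  rw [inner_add_left] at h1
  simp only [Complex.conj_I, map_neg, neg_neg] at h2
  linear_combination h1 / 2 + Complex.I / 2 * h2 +
    (⟪(ξ : W), (w : W)⟫_ℂ - ⟪r.J ξ, (w : W)⟫_ℂ) / 2 * Complex.I_mul_I

end re

variable {n : ℕ} {X : Type} [TopologicalSpace X] {A : Atl n X} {G : Type} [Group G]
  {D : MonD A G} {q : ℕ} {M N : Subgroup G} [M.Normal] [N.Normal] {Z : Stp D q M}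
  {H : Type} [NormedAddCommGroup H] [InnerProductSpace ℂ H] [CompleteSpace H] {a : Act M H}
  {m : Min D Z.al a N}

namespace Av

variable (V : Av Z m)

/-- the translates of the minimizing sequence -/
def fm : Fm Z (G ⧸ M) H (Li (G ⧸ M) H) where
  J := a.J
  JW := jl a
  cont := cont_lm _ _
  ev := Rel85.evL H
  sep _ h := lp.ext (funext h)
  ev_J _ _ := rfl
  f ω k e := m.f k ((ω.out)⁻¹ • e)
  S := V.SL
  re _ _ _ := m.f_re _ _
  lim := V.lim
  hol := V.hol
  deg := V.deg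
  hor := V.hor
  closed := V.closed

/-- the functional `⟪ξ, ·⟫` on bounded functions -/
def l (ξ : Ms V.μ H) : Li (G ⧸ M) H →L[ℂ] ℂ := (innerSL ℂ ξ).comp (Ms.i V.μ)

theorem l_J {ξ : Ms V.μ H} (hξ : V.r.J ξ = ξ) (w : Li (G ⧸ M) H) :
    V.l ξ (jl a w) = conj (V.l ξ w) := by
  change ⟪ξ, Ms.i V.μ (jl a w)⟫_ℂ = conj ⟪ξ, Ms.i V.μ w⟫_ℂ
  rw [← V.r_J, inner_conj_symm, ← V.r.inner_J ξ, hξ]

theorem l_π {ξ : Ms V.μ H} {g : G} (hξ : V.r.π g ξ = ξ) (w : Li (G ⧸ M) H) :
    V.l ξ (tl a g w) = V.l ξ w := by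
  change ⟪ξ, Ms.i V.μ (tl a g w)⟫_ℂ = ⟪ξ, Ms.i V.μ w⟫_ℂ
  rw [← V.r_π, ← (V.r.π g).inner_map_map ξ (Ms.i V.μ w), hξ]

variable {V} {F : Z.Fb} (P : V.fm.Pr F)

/-- the real fibre primitive of `⟪ξ, S⟫` -/
def u (ξ : Ms V.μ H) (e : D.cov G) : ℝ := (V.l ξ (P.U e)).re

theorem u_cont (ξ : Ms V.μ H) : ContinuousOn (u P ξ) (Z.al ⁻¹' P.B) :=
  (Complex.continuous_re.comp (V.l ξ).continuous).comp_continuousOn P.continuousOn

theorem u_N (hN : ∀ g : M, (g : G) ∈ N → ∀ x, a.α g x = x) (ξ : Ms V.μ H) {g : G} (hg : g ∈ M)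
    (hg' : g ∈ N) {e : D.cov G} (he : Z.al e ∈ P.B) : u P ξ (g • e) = u P ξ e := by
  rw [u, u, P.inv hg (fun ω k y => ?_) he]
  have h := m.f_eqv k ⟨_, ‹M.Normal›.conj_mem' g hg ω.out⟩ ((ω.out)⁻¹ • y)
  rw [hN _ (‹N.Normal›.conj_mem' g hg' ω.out), smul_smul, mul_inv_cancel_right, mul_smul] at h
  exact h

theorem u_M {ξ : Ms V.μ H} {g : G} (hg : g ∈ M) (hξ : V.r.π g ξ = ξ) {e e' : D.cov G}
    (he : Z.al e ∈ P.B) (h : Z.al e' = Z.al e) :
    u P ξ (g • e) - u P ξ e = u P ξ (g • e') - u P ξ e' := by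
  have h1 := P.const hg (fun ω => g⁻¹ • ω) (fun ω => a.π (cc M g ω)) (fun ω => a.b (cc M g ω))
    (T := tl a g) (cont_lm _ _) (fun _ _ => rfl) (fun ω k y => by
      have h := m.f_eqv k (cc M g ω) (((g⁻¹ • ω).out)⁻¹ • y)
      rw [cc_coe, smul_smul, ← mul_assoc, mul_inv_cancel_right, mul_smul] at h
      exact h) he h
  have h2 := congrArg (fun w => (V.l ξ w).re) h1
  simpa only [u, map_sub, V.l_π hξ, Complex.sub_re] using h2

theorem u_loc {ξ : Fx V.r N} (hξ : V.r.J ξ = ξ) (e : D.cov G) (he : e ∈ Z.al ⁻¹' P.B) (i : A.ι)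
    (hi : D.pr e ∈ (A.e i).source) : ∃ (f : X → ℂ) (c : Cn q → ℝ) (κ : ℂ),
      Hm A f (D.pr e) ∧ ∀ᶠ x in 𝓝 (D.pr e),
        u P ξ (D.pt i (D.co i e) x) = (f x).re + c (V.Φ.a i (D.co i e) x) ∧
        (fun I => ⟪ξ, V.Φ.S i (D.co i e) x I⟫_ℂ) =
          κ • (eW (fun b => dl A i b f x) *ᵥ dW A i (V.Φ.a i (D.co i e)) x) := by
  obtain ⟨Φ, c, h1, h2⟩ := P.form he hi
  let L : Li (G ⧸ M) H →L[ℂ] ℂ := (2 : ℂ) • V.l ξ
  refine ⟨fun x => L (Φ (A.e i x)), fun t => (V.l ξ (c t)).re, 1 / 2, Hm.of_one hi ?_, ?_⟩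
  · refine ((L.analyticAt _).comp h1).congr ?_
    filter_upwards [(A.e i).eventually_right_inverse' hi] with z hz
    rw [hz, Function.comp_apply]
  rw [V.Φ_a]
  filter_upwards [h2, (A.e i).open_source.mem_nhds hi,
    ((A.e i).continuousAt hi).eventually h1.eventually_analyticAt] with x h3 h4 h5
  constructor
  · rw [u, h3.1, map_add, map_add]
    change (_ + V.l ξ (jl a _) + _).re = ((2 : ℂ) • V.l ξ _).re + _
    rw [V.l_J hξ, two_smul]
    rfl
  · have h6 : ∀ b, dl A i b (fun x => L (Φ (A.e i x))) x =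
        (2 : ℂ) • V.l ξ (dj b Φ (A.e i x)) := fun b => by
      refine (dj_congr ?_).trans
        (Rel85.dj_clm' L (h5.differentiableAt.restrictScalars ℝ) b)
      filter_upwards [(A.e i).eventually_right_inverse' h4] with z hz
      rw [hz]
    have h7 : (fun I => ⟪ξ, V.Φ.S i (D.co i e) x I⟫_ℂ) =
        fun I => V.l ξ (V.fm.S i (D.co i e) x I) :=
      funext fun I => congrArg (fun w => ⟪(ξ : Ms V.μ H), w⟫_ℂ) (V.Φ_S i _ x h4 I)
    rw [h7, h3.2, ← w1_scal, funext h6, ← Plk.w1_smul]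
    refine (Plk.w1_map (V.l ξ : Li (G ⧸ M) H →ₗ[ℂ] ℂ) _ _).trans (congrArg _ (funext fun b => ?_))
    simp

/-- the data on the big cover -/
def up (hN : ∀ g : M, (g : G) ∈ N → ∀ x, a.α g x = x) (hL : ∀ g ∈ N, Z.L g = 1)
    (hlam : ∀ g ∈ N, Z.lam g = 0 → g ∈ M)
    (hsub : ∀ P : Subgroup G, P ≤ N → (∀ t ∈ Submodule.span ℝ (Z.lam '' P),
      Complex.I • t ∈ Submodule.span ℝ (Z.lam '' P)) → ∀ g ∈ P, Z.lam g = 0) : Up V.Φ N where
  al := Z.al
  al_eq i v x _ := by rw [V.Φ_a]; rfl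
  lam := Z.lam
  al_N g hg e := by rw [Z.eqv, hL g hg]; rfl
  ρ_N g hg := LinearIsometryEquiv.ext fun ξ => Subtype.ext (by
    rw [V.Φ_ρ, Rel85.det_of_eq Z (hL g hg), one_smul]
    exact ξ.2 g hg)
  sub := hsub
  T := Z.al ⁻¹' P.B
  T_opn := P.isOpen
  T_ne := P.ne
  T_sat e he Y _ _ h y hy := by rwa [mem_preimage, h y hy]
  Ξ := {ξ | V.r.J ξ = ξ}
  Ξ_sep w h := inner_self_eq_zero.1 (inner_of_re V.r (h _ (J_re V.r w)) (h _ (J_re V.r _)))
  prim ξ hξ := ⟨u P ξ, u_cont P ξ, fun g hg h0 _ he _ => u_N P hN ξ (hlam g hg h0) hg he,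
    u_loc P hξ⟩

include P in
theorem noFix [ConnectedSpace (D.cov G)] (hN : ∀ g : M, (g : G) ∈ N → ∀ x, a.α g x = x)
    (hV : ¬ Grp.VInd (M.map (QuotientGroup.mk' N))) : V.Φ.NoFix M := by
  intro K hK ξ hξ i v x hx I
  have sat : ∀ e ∈ Z.al ⁻¹' P.B, ∀ e', Z.al e' = Z.al e → e' ∈ Z.al ⁻¹' P.B := fun e he e' h => by
    rwa [mem_preimage, h]
  have key : ∀ ζ : Fx V.r N, (∀ g ∈ K, V.r.π g ζ = ζ) → ⟪re V.r ζ, V.Φ.S i v x I⟫_ℂ = 0 :=
    fun ζ hζ => Mp.inner_eq_zero Z F V.Φ V.Φ_a P.isOpen P.ne (fun e he => P.sub he) sat _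
      (u_cont P (re V.r ζ)) hK (Mp.inv_of Z hV hK sat
        (fun g hg e he e' _ h => u_M P (hK.le hg) (π_re V.r (hζ g hg)) he h.symm)
        fun g hg hg' e he => u_N P hN _ (hK.le hg) hg' he) (u_loc P (J_re V.r ζ)) i v x hx I
  have h1 : ∀ g ∈ K, V.r.π g ξ = ξ := fun g hg => by
    have h := V.Φ_ρ g ξ
    rw [hξ g hg, Rel85.det_of_eq Z (Z.L_M g (hK.le hg)), one_smul] at h
    exact h.symm
  refine inner_of_re V.r (key ξ h1) (key _ fun g hg => ?_)
  rw [Submodule.coe_smul, map_smul, h1 g hg]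

end Av

/-- **REL** -/
theorem rel : RelStmt := by
  intro n X _ _ A G _ D hc q M N _ _ Z F H _ _ _ a m hA hN hAm hL hlam hsub hV
  obtain ⟨e₀, he₀⟩ := F.ne
  obtain ⟨i₀, hi₀⟩ := A.cover (D.pr e₀)
  obtain ⟨V⟩ := Rel85.av n X A G D q M N Z H a m hAm hL
    ⟨i₀, D.co i₀ e₀, _, hi₀, F.reg _ _ _ hi₀ (by rwa [D.pt_co hi₀])⟩
    (vert n X A G D q M Z F H a m.f m.S m.lim m.f_re m.f_eqv hA)
  obtain ⟨P⟩ := V.fm.exists_pr F
  exact ⟨Fx V.r N, inferInstance, inferInstance, inferInstance, V.Φ,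
    ⟨Av.up P hN hL hlam hsub⟩, Av.noFix P hN hV⟩

end

end Crest.Agent.X261.Rel
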